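import Vale.Agent.P225.Geom.Cone

/-!
P225 (helper29): the base frame on `chartOff`, and the projection to the cross-section `S³ × S³`.
-/

namespace Vale.Agent.P225

open scoped BigOperators
open Set Matrix

noncomputable section

/-- The ambient space of the cross-section. -/
abbrev Sph := (Fin 4 → ℝ) × (Fin 4 → ℝ)

/-- The index of a field of the cross-section among the seven base fields. -/
def idx (k : Fin 2 × Fin 3) : Fin 7 :=
  ⟨1 + 3 * k.1.val + k.2.val, by omega⟩

theorem idx_zero (σ : Fin 3) : idx (0, σ) = (![1, 2, 3] : Fin 3 → Fin 7) σ := by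
  fin_cases σ <;> rfl

theorem idx_one (σ : Fin 3) : idx (1, σ) = (![4, 5, 6] : Fin 3 → Fin 7) σ := by
  fin_cases σ <;> rfl

theorem sum_fin7 {A : Type*} [AddCommMonoid A] (F : Fin 7 → A) :
    ∑ a, F a = F 0 + ∑ k, F (idx k) := by
  rw [Fin.sum_univ_seven, Fintype.sum_prod_type]
  simp [Fin.sum_univ_three, idx_zero, idx_one, add_assoc]

/-- The six fields on the ambient space of the cross-section. -/
def sfield (k : Fin 2 × Fin 3) (z : Sph) : Sph :=
  if k.1 = 0 then (qmul k.2 *ᵥ z.1, 0) else (0, qmul k.2 *ᵥ z.2)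

/-- The cross-section coordinate of a point. -/
def sph (x : Pt 7) : Sph := ((Real.sqrt (rsq x))⁻¹ • xc x, (Real.sqrt (ys x))⁻¹ • yc x)

/-- `log r`. -/
def tlog (x : Pt 7) : ℝ := Real.log (rsq x) / 2

variable {x : Pt 7}

theorem sph_mem (hx : x ∈ chartOff) : (sph x).1 ⬝ᵥ (sph x).1 = 1 ∧ (sph x).2 ⬝ᵥ (sph x).2 = 1 := by
  have h1 : 0 < rsq x := hx.2
  have h2 : 0 < ys x := hx.1
  simp only [sph, smul_dotProduct, dotProduct_smul, smul_eq_mul, ys_eq,
    show xc x ⬝ᵥ xc x = rsq x from rfl]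
  constructor
  · field_simp; rw [Real.sq_sqrt h1.le]
  · field_simp; rw [Real.sq_sqrt h2.le]

theorem baseField_zero : baseField 0 = liftField 1 := rfl

theorem baseField_idx (k : Fin 2 × Fin 3) :
    baseField (idx k) = if k.1 = 0 then liftField (qmul k.2) else spinField (qmul k.2) := by
  obtain ⟨i, σ⟩ := k
  fin_cases i <;> fin_cases σ <;> rfl

/-! ### Derivatives along the base fields -/

theorem contDiffOn_yc (i : Fin 4) : ContDiffOn ℝ 2 (fun x => yc x i) chart := by
  fin_cases i <;> exact (contDiff_apply ℝ ℝ _).contDiffOn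

theorem hasFDerivAt_xc (hx : x ∈ chart) (i : Fin 4) :
    HasFDerivAt (fun y => xc y i) (fderiv ℝ (fun y => xc y i) x) x :=
  (((contDiffOn_xc i).contDiffAt (isOpen_chart.mem_nhds hx)).differentiableAt
    (by norm_num)).hasFDerivAt

theorem differentiableAt_rsq (hx : x ∈ chart) : DifferentiableAt ℝ rsq x :=
  ((contDiffOn_rsq).contDiffAt (isOpen_chart.mem_nhds hx)).differentiableAt (by norm_num)

theorem dxc_baseField_zero (hx : x ∈ chart) : dxc x (baseField 0 x) = xc x := by
  rw [baseField_zero, liftField, dxc_liftVec hx, one_mulVec]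

theorem dxc_baseField_idx (hx : x ∈ chart) (k : Fin 2 × Fin 3) :
    dxc x (baseField (idx k) x) = (sfield k (xc x, yc x)).1 := by
  obtain ⟨i, σ⟩ := k
  rw [baseField_idx]
  fin_cases i
  · simp [sfield, liftField, dxc_liftVec hx]
  · simp [sfield, spinField, dxc_spinVec, qmul_skew]

theorem dirDeriv_tlog (hx : x ∈ chartOff) (v : Pt 7) :
    dirDeriv tlog v x = (xc x ⬝ᵥ dxc x v) / rsq x := by
  have h := ((differentiableAt_rsq hx.1).hasFDerivAt.log (ne_of_gt hx.2)).mul_const (1 / 2 : ℝ)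
  show fderiv ℝ (fun y => Real.log (rsq y) / 2) x v = _
  rw [show (fun y => Real.log (rsq y) / 2) = fun y => Real.log (rsq y) * (1 / 2) from
    funext fun y => by ring, h.fderiv]
  have := dirDeriv_rsq hx.1 v
  simp only [dirDeriv] at this
  simp only [_root_.smul_apply, smul_eq_mul, this]
  ring

theorem dirDeriv_tlog_zero (hx : x ∈ chartOff) : dirDeriv tlog (baseField 0 x) x = 1 := by
  rw [dirDeriv_tlog hx, dxc_baseField_zero hx.1]
  exact div_self (ne_of_gt hx.2)

theorem dirDeriv_tlog_idx (hx : x ∈ chartOff) (k : Fin 2 × Fin 3) :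
    dirDeriv tlog (baseField (idx k) x) x = 0 := by
  rw [dirDeriv_tlog hx, dxc_baseField_idx hx.1]
  obtain ⟨i, σ⟩ := k
  fin_cases i <;> simp [sfield, qmul_skew]

theorem baseStruct_trace (p : Fin 7) : ∑ a, baseStruct p a a = 0 :=
  Finset.sum_eq_zero fun a _ => by simp [baseStruct]

end

end Vale.Agent.P225
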