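import Vale.Agent.P225.Weights

/-!
P225 module 14a (helper29): the time schedule.

Loop `j` is a list of pieces. Every piece lasts `j^q` for a fixed power `q` (`5` for controls,
transits and insertions; `6` for the buffer; `7` for the main hold).  The scale is `dFun t` (`det Q`),
explicit: `v = (3/2) (log dFun)' = -(3/16) κ t^(-9/8)` dominates all squared speeds `j^-10`.
-/

namespace Vale.Agent.P225

open Finset

noncomputable section

/-- One piece of a loop program. `k` is the index of its real parameter. -/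
inductive Piece : Type
  /-- constant weights at junction `J` for a time `j^q` -/
  | wait (J : Fin 3) (q : ℕ)
  /-- excursion at junction `J`, seen in the isometry `g`, amplitude `τ k` -/
  | exc (J : Fin 3) (g : ℕ) (k : ℕ)
  /-- transit from `J3` to junction `J` -/
  | out (J : Fin 3)
  /-- transit from junction `J` back to `J3` -/
  | back (J : Fin 3)
  /-- corrector insertion number `f` at `J3`, amplitude `τ k` -/
  | ins (f : ℕ) (k : ℕ)
deriving DecidableEq

namespace Piece

/-- Exponent of the duration. -/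
def power : Piece → ℕ
  | wait _ q => q
  | _ => 5

/-- Duration in loop `j`. -/
def len (P : Piece) (j : ℕ) : ℝ := ((j : ℝ) + 1) ^ P.power

theorem one_le_len (P : Piece) (j : ℕ) : 1 ≤ P.len j :=
  one_le_pow₀ (by linarith [(Nat.cast_nonneg j : (0 : ℝ) ≤ j)])

theorem len_pos (P : Piece) (j : ℕ) : 0 < P.len j := zero_lt_one.trans_le (P.one_le_len j)

/-- Raw weights at local time `s`, in the basis of the piece (insertions sit at `J3`). -/
def raw (P : Piece) (j : ℕ) (τ : ℕ → ℝ) (s : ℝ) : Fin 3 → ℝ :=
  match P with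
  | wait J _ => rotW J (rawExc 0)
  | exc J _ k => rotW J (rawExc (τ k / P.len j * bump (s / P.len j)))
  | out J => if J = 0 then rawExc 0
      else if J = 1 then rawTransit (s / P.len j)
      else rotW 2 (rawTransit (1 - s / P.len j))
  | back J => if J = 0 then rawExc 0
      else if J = 1 then rawTransit (1 - s / P.len j)
      else rotW 2 (rawTransit (s / P.len j))
  | ins _ _ => rawExc 0

/-- Junction at the start. -/
def src : Piece → Fin 3
  | wait J _ => J
  | exc J _ _ => J
  | out _ => 0
  | back J => J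
  | ins _ _ => 0

/-- Junction at the end. -/
def dst : Piece → Fin 3
  | wait J _ => J
  | exc J _ _ => J
  | out J => J
  | back _ => 0
  | ins _ _ => 0

theorem rotW_two_one : rotW 2 (rotW 1 (rawExc 0)) = rawExc 0 := by
  funext i
  have h : i - 2 - 1 = i := by fin_cases i <;> rfl
  simp [rotW, h]

theorem raw_start (P : Piece) (j : ℕ) (τ : ℕ → ℝ) {s : ℝ} (hs : s ≤ P.len j / 4) :
    P.raw j τ s = rotW P.src (rawExc 0) := by
  have h : s / P.len j ≤ 1 / 4 := (div_le_iff₀ (P.len_pos j)).2 (by linarith)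
  have h' : 3 / 4 ≤ 1 - s / P.len j := by linarith
  have r0 : rotW 0 (rawExc 0) = rawExc 0 := by funext i; simp [rotW]
  cases P with
  | wait J q => rfl
  | exc J g k => simp [raw, src, bump_zero_of_le h]
  | ins f k => simp [raw, src, r0]
  | out J =>
      rcases (by decide : ∀ J : Fin 3, J = 0 ∨ J = 1 ∨ J = 2) J with rfl | rfl | rfl <;>
        simp [raw, src, r0, rawTransit_left h, rawTransit_right h', rotW_two_one]
  | back J =>
      rcases (by decide : ∀ J : Fin 3, J = 0 ∨ J = 1 ∨ J = 2) J with rfl | rfl | rfl <;>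
        simp [raw, src, r0, rawTransit_left h, rawTransit_right h']

theorem raw_end (P : Piece) (j : ℕ) (τ : ℕ → ℝ) {s : ℝ} (hs : 3 * P.len j / 4 ≤ s) :
    P.raw j τ s = rotW P.dst (rawExc 0) := by
  have h : 3 / 4 ≤ s / P.len j := (le_div_iff₀ (P.len_pos j)).2 (by linarith)
  have h' : 1 - s / P.len j ≤ 1 / 4 := by linarith
  have r0 : rotW 0 (rawExc 0) = rawExc 0 := by funext i; simp [rotW]
  cases P with
  | wait J q => rfl
  | exc J g k => simp [raw, dst, bump_zero_of_ge h]
  | ins f k => simp [raw, dst, r0]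
  | out J =>
      rcases (by decide : ∀ J : Fin 3, J = 0 ∨ J = 1 ∨ J = 2) J with rfl | rfl | rfl <;>
        simp [raw, dst, r0, rawTransit_right h, rawTransit_left h']
  | back J =>
      rcases (by decide : ∀ J : Fin 3, J = 0 ∨ J = 1 ∨ J = 2) J with rfl | rfl | rfl <;>
        simp [raw, dst, r0, rawTransit_right h, rawTransit_left h', rotW_two_one]

end Piece

/-- Programs of all loops and the start time of loop `j0`. -/
structure Sched : Type where
  prog : ℕ → List Piece
  j0 : ℕ
  t0 : ℝ
  one_le_t0 : 1 ≤ t0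

namespace Sched

variable (S : Sched)

/-- Duration of loop `j`. -/
def loopLen (j : ℕ) : ℝ := ((S.prog j).map fun P => P.len j).sum

/-- Start of loop `j0 + i`. -/
def start (i : ℕ) : ℝ := S.t0 + ∑ l ∈ range i, S.loopLen (S.j0 + l)

/-- Start of the `m`-th piece of loop `j0 + i`. -/
def pieceStart (i m : ℕ) : ℝ :=
  S.start i + (((S.prog (S.j0 + i)).take m).map fun P => P.len (S.j0 + i)).sum

theorem loopLen_nonneg (j : ℕ) : 0 ≤ S.loopLen j := by
  refine List.sum_nonneg fun x hx => ?_
  obtain ⟨P, -, rfl⟩ := List.mem_map.1 hx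
  exact (P.len_pos j).le

theorem start_succ (i : ℕ) : S.start (i + 1) = S.start i + S.loopLen (S.j0 + i) := by
  simp [start, sum_range_succ, add_assoc]

theorem start_mono : Monotone S.start :=
  monotone_nat_of_le_succ fun i => by
    rw [start_succ]; linarith [S.loopLen_nonneg (S.j0 + i)]

theorem t0_le_start (i : ℕ) : S.t0 ≤ S.start i := by
  have := S.start_mono (Nat.zero_le i)
  simpa [start] using this

theorem pieceStart_zero (i : ℕ) : S.pieceStart i 0 = S.start i := by simp [pieceStart]

theorem pieceStart_succ (i m : ℕ) (h : m < (S.prog (S.j0 + i)).length) :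
    S.pieceStart i (m + 1) = S.pieceStart i m + ((S.prog (S.j0 + i))[m]).len (S.j0 + i) := by
  simp only [pieceStart, List.take_succ_eq_append_getElem h, List.map_append, List.sum_append,
    List.map_cons, List.map_nil, List.sum_cons, List.sum_nil, add_zero]
  ring

theorem pieceStart_length (i : ℕ) :
    S.pieceStart i (S.prog (S.j0 + i)).length = S.start (i + 1) := by
  rw [start_succ]; simp [pieceStart, loopLen]

theorem pieceStart_mono (i : ℕ) : Monotone (S.pieceStart i) := by
  refine monotone_nat_of_le_succ fun m => ?_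
  rcases lt_or_ge m (S.prog (S.j0 + i)).length with h | h
  · rw [S.pieceStart_succ i m h]
    linarith [((S.prog (S.j0 + i))[m]).len_pos (S.j0 + i)]
  · simp [pieceStart, List.take_of_length_le h, List.take_of_length_le (h.trans (Nat.le_succ m))]

/-- Pieces are disjoint in time and ordered. -/
theorem pieceStart_le {i i' m m' : ℕ} (h : i < i') (hm : m ≤ (S.prog (S.j0 + i)).length) :
    S.pieceStart i m ≤ S.pieceStart i' m' := by
  calc S.pieceStart i m ≤ S.pieceStart i (S.prog (S.j0 + i)).length := S.pieceStart_mono i hm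
    _ = S.start (i + 1) := S.pieceStart_length i
    _ ≤ S.start i' := S.start_mono h
    _ = S.pieceStart i' 0 := (S.pieceStart_zero i').symm
    _ ≤ S.pieceStart i' m' := S.pieceStart_mono i' (Nat.zero_le m')

end Sched

/-- `det Q` along the end. -/
def dFun (κ t : ℝ) : ℝ := dMin * Real.exp (κ * t ^ (-(1 / 8) : ℝ))

/-- Volume drift `v = (3/2) (log dFun)'`. -/
def vFun (κ t : ℝ) : ℝ := -(3 / 16) * κ * t ^ (-(9 / 8) : ℝ)

theorem hasDerivAt_log_dFun (κ : ℝ) {t : ℝ} (ht : 0 < t) :
    HasDerivAt (fun s => 3 / 2 * Real.log (dFun κ s)) (vFun κ t) t := by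
  have hd : (0 : ℝ) < dMin := by norm_num [dMin]
  have h := ((Real.hasDerivAt_rpow_const (p := (-(1 / 8) : ℝ)) (Or.inl ht.ne')).const_mul κ)
  have h2 : HasDerivAt (fun s => 3 / 2 * (Real.log dMin + κ * s ^ (-(1 / 8) : ℝ)))
      (3 / 2 * (κ * (-(1 / 8) * t ^ (-(1 / 8) - 1 : ℝ)))) t :=
    ((h.const_add (Real.log dMin)).const_mul (3 / 2 : ℝ) :)
  convert h2 using 1
  · funext s
    rw [dFun, Real.log_mul hd.ne' (Real.exp_ne_zero _), Real.log_exp]
  · rw [vFun, show (-(1 / 8) - 1 : ℝ) = -(9 / 8) by norm_num]; ring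

theorem dMin_le_dFun {κ t : ℝ} (hκ : 0 ≤ κ) (ht : 0 ≤ t) : dMin ≤ dFun κ t := by
  have hd : (0 : ℝ) < dMin := by norm_num [dMin]
  exact le_mul_of_one_le_right hd.le (Real.one_le_exp (mul_nonneg hκ (Real.rpow_nonneg ht _)))

theorem dFun_anti {κ : ℝ} (hκ : 0 ≤ κ) : AntitoneOn (dFun κ) (Set.Ioi 0) := by
  intro a ha b _ hab
  have hd : (0 : ℝ) ≤ dMin := by norm_num [dMin]
  refine mul_le_mul_of_nonneg_left (Real.exp_le_exp.2 ?_) hd
  exact mul_le_mul_of_nonneg_left (Real.rpow_le_rpow_of_nonpos ha hab (by norm_num)) hκ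

end

end Vale.Agent.P225
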