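import Vale.Agent.P225.Metric.Ricci
import Vale.Agent.P225.Geom.End
import Vale.Agent.P225.Model.IsoBracket
import Vale.Agent.P225.Model.Fields

/-!
P225 (helper29): the schedules of the model with small amplitudes carry complete metrics with `Ric ≥ 0`.
-/

namespace Vale.Agent.P225

open scoped BigOperators
open Set

noncomputable section

theorem isoBrackets_modelF : IsoBrackets Model.modelF where
  bracket := fun J g _ hy a b f => Model.changeStruct_isoA J g hy a b f

/-- Late schedules with small amplitudes: complete, `Ric ≥ 0`, distance at least `|x| - C₀`. -/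
theorem exists_complete_metric (Nf : ℕ) {κ : ℝ} (hκ : 0 < κ) : ∃ T : ℝ, 1 ≤ T ∧ ∀ M : ℕ, ∃ N : ℕ,
    ∀ (T' : ℝ) (hT' : 1 ≤ T') (S : Sched) (τ : Params),
      EndHyps (capData κ T' hT') S Model.modelF τ → T ≤ T' → dFun κ (2 * T') ≤ dMax → N ≤ S.j0 →
      S.t0 ≤ ((S.j0 : ℝ) + 1) ^ 8 →
      (∀ j, (S.prog j).length ≤ M) → (∀ j, ∀ P ∈ S.prog j, P.power ≤ 7) →
      (∀ j, ∀ P ∈ S.prog j, 5 ≤ P.power) →
      (∀ i m, ∀ h : m < (S.prog (S.j0 + i)).length,
        ((S.prog (S.j0 + i))[m]).RicciAmp Nf (S.j0 + i) (τ i)) →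
      IsCompleteNonnegRicci chart (globalMetric (capData κ T' hT') S Model.modelF τ) ∧
        ∀ o ∈ chart, ∀ x ∈ chart, Real.sqrt (rsq x)
          ≤ dist chart (globalMetric (capData κ T' hT') S Model.modelF τ) o x + rad1 o := by
  obtain ⟨T₁, hT₁1, hR⟩ := exists_ricci_nonneg Model.modelSmooth isoBrackets_modelF Nf hκ
  obtain ⟨T₀, hT₀1, hcap⟩ := capData_ricci hκ
  refine ⟨max T₀ T₁, hT₁1.trans (le_max_right _ _), fun M => ?_⟩
  obtain ⟨N, hN⟩ := hR M
  refine ⟨N, fun T' hT' S τ H hT hd hj ht0 hlen hpow hpow5 hamp => ?_⟩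
  have hc := hcap T' ((le_max_left _ _).trans hT) hT'
  have hr := hN (capData κ T' hT') S τ H ((le_max_right _ _).trans hT) hd hj ht0 hlen hpow hpow5
    hamp (fun x hx _ v => hc x hx v)
  exact ⟨H.isCompleteNonnegRicci hc (fun x hx _ v => hr x hx.1 v),
    fun o ho x hx => H.sqrt_rsq_le_dist ho hx⟩

end

end Vale.Agent.P225
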