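import Vale.Agent.P225.Metric.Local
import Mathlib.Analysis.Normed.Module.Connected

/-!
P225 (helper29): the metric on the whole chart: the cap up to `t0`, the scheduled end after it,
glued to a metric which is smooth through the core `rsq = 0`.
-/

namespace Vale.Agent.P225

open scoped BigOperators ContDiff
open Set Matrix Filter Topology

noncomputable section

/-! ### The chart -/

/-- The first four coordinates. -/
def projY : Pt 7 →ₗ[ℝ] (Fin 4 → ℝ) where
  toFun x i := x (Fin.castLE (by norm_num) i)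
  map_add' _ _ := rfl
  map_smul' _ _ := rfl

theorem chart_eq_compl : chart = (LinearMap.ker projY : Set (Pt 7))ᶜ := by
  ext x
  have hy : projY x = yc x := by funext i; fin_cases i <;> rfl
  simp only [mem_compl_iff, SetLike.mem_coe, LinearMap.mem_ker, hy]
  show 0 < ys x ↔ _
  rw [← ys_eq]
  refine ⟨fun h h0 => by simp [h0] at h, fun h => ?_⟩
  refine lt_of_le_of_ne (dotProduct_self_star_nonneg (yc x)) fun h0 => h ?_
  exact dotProduct_self_eq_zero.1 h0.symm

theorem isConnected_chart : IsConnected chart := by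
  rw [chart_eq_compl]
  refine (isPathConnected_compl_of_one_lt_codim ?_).isConnected
  have hsur : Function.Surjective projY := fun y =>
    ⟨![y 0, y 1, y 2, y 3, 0, 0, 0], by funext i; fin_cases i <;> rfl⟩
  rw [(LinearMap.quotKerEquivOfSurjective projY hsur).rank_eq, rank_fin_fun]
  norm_num

/-! ### The cap -/

/-- Data of the cap: weights `W` that join the schedule at `2T`, and a metric through the core. -/
structure CapData (κ : ℝ) where
  W : ℝ → Fin 3 → ℝ
  T : ℝ
  T_pos : 1 ≤ T
  smooth_W : ∀ i, ContDiff ℝ ∞ fun t => W t i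
  pos : ∀ t, WPos (W t)
  junction : ∀ t, 2 * T ≤ t → W t = wNorm (dFun κ t) (rawExc 0)
  core : MetricField 7
  core_smooth : ∀ i j, ContDiffOn ℝ ∞ (fun x => core x i j) chart
  core_posDef : ∀ x ∈ chart, (core x).PosDef
  core_eq : ∀ x ∈ chartOff, tlog x ≤ 2 * T + 1 →
    core x = warpMetric (fun t _ => gram (W t)) x

variable {κ : ℝ} (C : CapData κ) (S : Sched) (F : ModelFields Sph) (τ : Params)

/-- The dual cross-section metric at all times. -/
def endP (t : ℝ) (z : Sph) : M6 := if t ≤ S.t0 then gram (C.W t) else S.pEnd F τ κ t z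

/-- The determinant of `endP`. -/
def endD (t : ℝ) : ℝ := if t ≤ S.t0 then wdet (C.W t) ^ 3 else (1 / dFun κ t) ^ 3

/-- The metric on the chart. -/
def globalMetric : MetricField 7 := fun x =>
  if rsq x = 0 then C.core x else warpMetric (endP C S F τ) x

variable {C S F τ}

theorem juncMat_eq_gram (κ t : ℝ) :
    gram (wNorm (dFun κ t) (rawExc 0)) = Real.sqrt (1 / dFun κ t) • juncMat 0 := by
  rw [juncMat, ← gram_smul]
  congr 1
  funext i
  have h : wdet (rawExc 0) = 1 := by simp [wdet, rawExc]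
  have r0 : rotW 0 (rawExc 0) = rawExc 0 := by funext i; simp [rotW]
  simp [wNorm, r0, h, mul_comm]

theorem pEnd_junction (hne : ∀ j, S.prog j ≠ []) {t : ℝ} (ht : t ≤ S.t0 + 1 / 4) (x : Sph) :
    S.pEnd F τ κ t x = gram (wNorm (dFun κ t) (rawExc 0)) := by
  rw [juncMat_eq_gram, Sched.pEnd, S.pUnit_eq_range F τ hne (n := ⌈t⌉₊ + 1) le_rfl x]
  congr 1
  rw [Finset.sum_eq_zero fun i _ => Finset.sum_eq_zero fun m _ => ?_, add_zero]
  refine S.incr_zero F τ (ht.trans ?_) x
  have h1 : S.t0 ≤ S.pieceStart i m := by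
    calc S.t0 ≤ S.start i := S.t0_le_start i
      _ = S.pieceStart i 0 := (S.pieceStart_zero i).symm
      _ ≤ S.pieceStart i m := S.pieceStart_mono i (Nat.zero_le m)
  linarith

/-- `endP` is the cap up to `t0 + 1/4`. -/
theorem endP_cap (hne : ∀ j, S.prog j ≠ []) (hT : 2 * C.T + 1 ≤ S.t0) {t : ℝ}
    (ht : t ≤ S.t0 + 1 / 4) (x : Sph) : endP C S F τ t x = gram (C.W t) := by
  unfold endP
  split_ifs with h
  · rfl
  · rw [pEnd_junction hne ht, C.junction t (by linarith [not_le.1 h])]

/-- `endP` is the schedule from `2T` on. -/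
theorem endP_end (hne : ∀ j, S.prog j ≠ []) (_hT : 2 * C.T + 1 ≤ S.t0) {t : ℝ}
    (ht : 2 * C.T ≤ t) (x : Sph) : endP C S F τ t x = S.pEnd F τ κ t x := by
  unfold endP
  split_ifs with h
  · rw [pEnd_junction hne (by linarith), C.junction t ht]
  · rfl

theorem wdet_cap (C : CapData κ) {t : ℝ} (ht : 2 * C.T ≤ t) : wdet (C.W t) = 1 / dFun κ t := by
  have hd : 0 < dFun κ t := mul_pos (by norm_num [dMin]) (Real.exp_pos _)
  have h : wdet (rawExc 0) = 1 := by simp [wdet, rawExc]
  have hs := Real.mul_self_sqrt (one_div_pos.2 hd).le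
  have e : wdet (wNorm (dFun κ t) (rawExc 0))
      = wdet (rawExc 0) * (Real.sqrt (1 / (dFun κ t * wdet (rawExc 0)))
        * Real.sqrt (1 / (dFun κ t * wdet (rawExc 0)))) := by
    simp only [wdet, wNorm]; ring
  rw [C.junction t ht, e, h, mul_one, one_mul, hs]

/-- The windows cover the end. -/
theorem Sched.exists_window (hne : ∀ j, S.prog j ≠ []) {t : ℝ} (ht : S.t0 ≤ t) :
    ∃ i m, ∃ _ : m < (S.prog (S.j0 + i)).length,
      S.pieceStart i m ≤ t ∧ t < S.pieceStart i (m + 1) := by
  have hex : ∃ i, t < S.start (i + 1) := ⟨⌈t⌉₊, by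
    have h := S.natCast_le_start hne (⌈t⌉₊ + 1)
    push_cast at h
    linarith [Nat.le_ceil t]⟩
  set i := Nat.find hex with hi
  have h1 : t < S.start (i + 1) := Nat.find_spec hex
  have h0 : S.start i ≤ t := by
    rcases Nat.eq_zero_or_pos i with h | h
    · simpa [h, Sched.start] using ht
    · have := Nat.find_min hex (m := i - 1) (by omega)
      rw [show i - 1 + 1 = i by omega] at this
      exact not_lt.1 this
  have hex2 : ∃ m, t < S.pieceStart i (m + 1) := by
    refine ⟨(S.prog (S.j0 + i)).length - 1, ?_⟩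
    have hl : (S.prog (S.j0 + i)).length ≠ 0 := fun h => hne _ (List.length_eq_zero_iff.1 h)
    rw [show (S.prog (S.j0 + i)).length - 1 + 1 = (S.prog (S.j0 + i)).length by omega,
      S.pieceStart_length]
    exact h1
  have hm : Nat.find hex2 < (S.prog (S.j0 + i)).length := by
    have hl : (S.prog (S.j0 + i)).length ≠ 0 := fun h => hne _ (List.length_eq_zero_iff.1 h)
    have := Nat.find_min' hex2 (m := (S.prog (S.j0 + i)).length - 1) (by
      rw [show (S.prog (S.j0 + i)).length - 1 + 1 = (S.prog (S.j0 + i)).length by omega,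
        S.pieceStart_length]
      exact h1)
    omega
  refine ⟨i, Nat.find hex2, hm, ?_, Nat.find_spec hex2⟩
  rcases Nat.eq_zero_or_pos (Nat.find hex2) with h | h
  · rw [h, S.pieceStart_zero]; exact h0
  · have := Nat.find_min hex2 (m := Nat.find hex2 - 1) (by omega)
    rw [show Nat.find hex2 - 1 + 1 = Nat.find hex2 by omega] at this
    exact not_lt.1 this

/-- Everything the end metric satisfies. -/
structure EndHyps (C : CapData κ) (S : Sched) (F : ModelFields Sph) (τ : Params) : Prop where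
  model : ModelSmooth F
  ne : ∀ j, S.prog j ≠ []
  chained : S.Chained
  small : S.Small τ
  late : 2 * C.T + 1 ≤ S.t0

namespace EndHyps

variable (H : EndHyps C S F τ)
include H

/-- A smooth square root near every time. -/
theorem exists_root (t : ℝ) : ∃ (I : Set ℝ) (M N : ℝ × Sph → M6),
    t ∈ I ∧ Root (endP C S F τ) I M N ∧ ∀ s ∈ I, ∀ z, (endP C S F τ s z).det = endD C S s := by
  have hT := H.late
  have hTp := C.T_pos
  rcases lt_or_ge t (S.t0 + 1 / 4) with h | h
  · refine ⟨Iio (S.t0 + 1 / 4), fun a => cholM (C.W a.1), fun a => cholN (C.W a.1), h,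
      ⟨isOpen_Iio, fun p q => ?_, fun p q => ?_, fun a _ => cholN_mul (C.pos _), fun a ha => ?_⟩,
      fun s hs z => ?_⟩
    · exact (contDiffOn_chol (fun i => ((C.smooth_W i).comp contDiff_fst).contDiffOn)
        (fun a _ => C.pos _) p q).1
    · exact (contDiffOn_chol (fun i => ((C.smooth_W i).comp contDiff_fst).contDiffOn)
        (fun a _ => C.pos _) p q).2
    · rw [endP_cap H.ne hT (mem_Iio.1 ha.1).le, cholM_sq (C.pos _)]
    · rw [endP_cap H.ne hT (mem_Iio.1 hs).le, det_gram, endD]
      split_ifs with hle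
      · rfl
      · rw [wdet_cap C (by linarith [not_le.1 hle])]
  · obtain ⟨i, m, hm, h1, h2⟩ := S.exists_window H.ne (t := t) (by linarith)
    have hR := Sched.root_window H.model S τ H.ne H.chained H.small κ hm
    have hI : ∀ s ∈ Ioo (S.pieceStart i m - 1 / 4) (S.pieceStart i (m + 1) + 1 / 4),
        2 * C.T ≤ s := by
      intro s hs
      have h0 : S.t0 ≤ S.pieceStart i m := by
        calc S.t0 ≤ S.start i := S.t0_le_start i
          _ = S.pieceStart i 0 := (S.pieceStart_zero i).symm
          _ ≤ S.pieceStart i m := S.pieceStart_mono i (Nat.zero_le m)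
      linarith [hs.1]
    refine ⟨Ioo (S.pieceStart i m - 1 / 4) (S.pieceStart i (m + 1) + 1 / 4), _, _,
      ⟨by linarith, by linarith⟩,
      ⟨hR.isOpen, hR.smooth_M, hR.smooth_N, hR.inv, fun a ha => ?_⟩, fun s hs z => ?_⟩
    · rw [endP_end H.ne hT (hI _ ha.1)]
      exact hR.sqrt a ha
    · rw [endP_end H.ne hT (hI _ hs),
        S.det_pEnd_window τ H.ne H.chained H.small κ hm hs.1.le hs.2.le, endD]
      split_ifs with hle
      · rw [wdet_cap C (hI _ hs)]
      · rfl

omit H in
theorem eq_warp {x : Pt 7} (hx : x ∈ chartOff) :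
    globalMetric C S F τ x = warpMetric (endP C S F τ) x := by
  rw [globalMetric, if_neg (ne_of_gt hx.2)]

omit H in
/-- The neighbourhood of the core on which the metric is `core`. -/
theorem isOpen_coreSet (C : CapData κ) :
    IsOpen {x | x ∈ chart ∧ rsq x < Real.exp (2 * (2 * C.T + 1))} :=
  (contDiffOn_rsq.continuousOn).isOpen_inter_preimage isOpen_chart isOpen_Iio

theorem eq_core {x : Pt 7} (hx : x ∈ chart) (hr : rsq x < Real.exp (2 * (2 * C.T + 1))) :
    globalMetric C S F τ x = C.core x := by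
  unfold globalMetric
  split_ifs with h
  · rfl
  · have h0 : 0 < rsq x := lt_of_le_of_ne (dotProduct_self_star_nonneg (xc x)) (Ne.symm h)
    have ht : tlog x ≤ 2 * C.T + 1 := by
      have := Real.log_le_log h0 hr.le
      rw [Real.log_exp] at this
      unfold tlog
      linarith
    rw [C.core_eq x ⟨hx, h0⟩ ht]
    simp only [warpMetric]
    rw [endP_cap H.ne H.late (by linarith [H.late])]

theorem smooth (i j : Fin 7) : ContDiffOn ℝ ∞ (fun x => globalMetric C S F τ x i j) chart := by
  intro x hx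
  refine ContDiffAt.contDiffWithinAt ?_
  rcases eq_or_ne (rsq x) 0 with h | h
  · have hxU : x ∈ {x | x ∈ chart ∧ rsq x < Real.exp (2 * (2 * C.T + 1))} :=
      ⟨hx, h ▸ Real.exp_pos _⟩
    refine ((C.core_smooth i j).contDiffAt (isOpen_chart.mem_nhds hx)).congr_of_eventuallyEq ?_
    filter_upwards [(isOpen_coreSet C).mem_nhds hxU] with y hy
    rw [H.eq_core hy.1 hy.2]
  · have hx0 : x ∈ chartOff := ⟨hx, lt_of_le_of_ne (dotProduct_self_star_nonneg (xc x)) (Ne.symm h)⟩
    obtain ⟨I, M, N, ht, hR, -⟩ := H.exists_root (tlog x)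
    refine ((hR.smooth_warp i j).contDiffAt (hR.isOpen_dom.mem_nhds ⟨hx0, ht⟩)).congr_of_eventuallyEq
      ?_
    filter_upwards [hR.isOpen_dom.mem_nhds ⟨hx0, ht⟩] with y hy
    rw [eq_warp hy.1]

theorem posDef {x : Pt 7} (hx : x ∈ chart) : (globalMetric C S F τ x).PosDef := by
  rcases eq_or_ne (rsq x) 0 with h | h
  · rw [H.eq_core hx (h ▸ Real.exp_pos _)]
    exact C.core_posDef x hx
  · have hx0 : x ∈ chartOff := ⟨hx, lt_of_le_of_ne (dotProduct_self_star_nonneg (xc x)) (Ne.symm h)⟩
    obtain ⟨I, M, N, ht, hR, -⟩ := H.exists_root (tlog x)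
    rw [eq_warp hx0]
    exact hR.warpLocal.isFrame.posDef x ⟨hx0, ht⟩

omit H in
/-- The Laplacian off the core is that of the warped metric. -/
theorem laplacian_eq {x : Pt 7} (hx : x ∈ chartOff) (u : Pt 7 → ℝ) :
    laplacian (globalMetric C S F τ) u x = laplacian (warpMetric (endP C S F τ)) u x :=
  laplacian_congr isOpen_chartOff hx (fun _ hy => eq_warp hy) u

end EndHyps

end

end Vale.Agent.P225
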