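import Vale.Agent.P225.Metric.Sched
import Mathlib.Analysis.Calculus.ContDiff.Defs

/-!
P225 module 14b (helper29): the inverse metric `P(t, point)` on the six invariant fields.

The schedule telescopes: `P = d^(-1/2) (P_J3 + ∑ (piece(s) - piece(start)))`, a locally finite sum,
so inside the window of a piece it equals that piece and at every gap the junction value.
-/

namespace Vale.Agent.P225

open Matrix Finset

noncomputable section

/-- Matrices on the six invariant fields `(W, Z)`. -/
abbrev M6 := Matrix (Fin 2 × Fin 3) (Fin 2 × Fin 3) ℝ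

/-- The Gram matrix of the dual metric with weights `w`. -/
def gram (w : Fin 3 → ℝ) : M6 :=
  Matrix.of fun p q => if p.2 = q.2 then !![w 0 + w 2, w 2; w 2, w 1 + w 2] p.1 q.1 else 0

theorem gram_smul (c : ℝ) (w : Fin 3 → ℝ) : gram (fun i => c * w i) = c • gram w := by
  ext p q
  simp only [gram, Matrix.of_apply, Matrix.smul_apply, smul_eq_mul]
  split_ifs with h
  · obtain ⟨p1, p2⟩ := p
    obtain ⟨q1, q2⟩ := q
    fin_cases p1 <;> fin_cases q1 <;> simp <;> ring
  · simp

/-- What the schedule needs of the model: junction isometries and corrector tensors, as matrix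
fields on the cross-section `X`. -/
structure ModelFields (X : Type*) where
  /-- Frame matrix of isometry `g` at junction `J`. -/
  iso : Fin 3 → ℕ → X → M6
  /-- Nilpotent tensor of insertion `f`. -/
  nil : ℕ → X → M6
  iso_fix : ∀ J g x,
    iso J g x * gram (rotW J (rawExc 0)) * (iso J g x)ᵀ = gram (rotW J (rawExc 0))
  nil_sq : ∀ f x, nil f x * nil f x = 0

variable {X : Type*} (F : ModelFields X)

/-- Dual metric of one piece, normalised to `det Q = 1`. -/
def Piece.pmat (P : Piece) (j : ℕ) (τ : ℕ → ℝ) (s : ℝ) (x : X) : M6 :=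
  let G := gram (wNorm 1 (P.raw j τ s))
  match P with
  | .exc J g _ => F.iso J g x * G * (F.iso J g x)ᵀ
  | .ins f k =>
      (1 + (τ k * bump (s / P.len j)) • F.nil f x)ᵀ * G
        * (1 + (τ k * bump (s / P.len j)) • F.nil f x)
  | _ => G

/-- The junction value. -/
def juncMat (J : Fin 3) : M6 := gram (wNorm 1 (rotW J (rawExc 0)))

theorem wNorm_junc (J : Fin 3) : wNorm 1 (rotW J (rawExc 0)) = rotW J (rawExc 0) := by
  have h : wdet (rotW J (rawExc 0)) = 1 := by
    rw [wdet_rotW]; simp [wdet, rawExc]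
  funext i; simp [wNorm, h]

theorem Piece.pmat_start (P : Piece) (j : ℕ) (τ : ℕ → ℝ) {s : ℝ} (hs : s ≤ P.len j / 4) (x : X) :
    P.pmat F j τ s x = juncMat P.src := by
  have h : s / P.len j ≤ 1 / 4 := (div_le_iff₀ (P.len_pos j)).2 (by linarith)
  cases P with
  | exc J g k =>
      simp only [pmat, juncMat, raw_start _ j τ hs]
      rw [show (Piece.exc J g k).src = J from rfl, wNorm_junc, F.iso_fix]
  | ins f k => simp [pmat, juncMat, raw_start _ j τ hs, bump_zero_of_le h]
  | wait J q => simp [pmat, juncMat, raw_start _ j τ hs]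
  | out J => simp [pmat, juncMat, raw_start _ j τ hs]
  | back J => simp [pmat, juncMat, raw_start _ j τ hs]

theorem Piece.pmat_end (P : Piece) (j : ℕ) (τ : ℕ → ℝ) {s : ℝ} (hs : 3 * P.len j / 4 ≤ s) (x : X) :
    P.pmat F j τ s x = juncMat P.dst := by
  have h : 3 / 4 ≤ s / P.len j := (le_div_iff₀ (P.len_pos j)).2 (by linarith)
  cases P with
  | exc J g k =>
      simp only [pmat, juncMat, raw_end _ j τ hs]
      rw [show (Piece.exc J g k).dst = J from rfl, wNorm_junc, F.iso_fix]
  | ins f k => simp [pmat, juncMat, raw_end _ j τ hs, bump_zero_of_ge h]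
  | wait J q => simp [pmat, juncMat, raw_end _ j τ hs]
  | out J => simp [pmat, juncMat, raw_end _ j τ hs]
  | back J => simp [pmat, juncMat, raw_end _ j τ hs]

/-- Parameters of every loop. -/
abbrev Params := ℕ → ℕ → ℝ

namespace Sched

variable (S : Sched) (τ : Params)

/-- Contribution of one piece: `piece(s) - piece(start)`. -/
def incr (i m : ℕ) (t : ℝ) (x : X) : M6 :=
  if h : m < (S.prog (S.j0 + i)).length then
    ((S.prog (S.j0 + i))[m]).pmat F (S.j0 + i) (τ i) (t - S.pieceStart i m) x
      - juncMat ((S.prog (S.j0 + i))[m]).src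
  else 0

/-- The dual metric with `det Q = 1`. -/
def pUnit (t : ℝ) (x : X) : M6 :=
  juncMat 0 + ∑ i ∈ range (⌈t⌉₊ + 1), ∑ m ∈ range (S.prog (S.j0 + i)).length, S.incr F τ i m t x

/-- The dual metric of the end. -/
def pEnd (κ t : ℝ) (x : X) : M6 := Real.sqrt (1 / dFun κ t) • S.pUnit F τ t x

theorem incr_zero {i m : ℕ} {t : ℝ} (ht : t ≤ S.pieceStart i m + 1 / 4) (x : X) :
    S.incr F τ i m t x = 0 := by
  unfold incr
  split_ifs with h
  · rw [Piece.pmat_start F _ _ _ ?_ x, sub_self]
    linarith [((S.prog (S.j0 + i))[m]).one_le_len (S.j0 + i)]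
  · rfl

/-- A program chains from `J3` back to `J3`. -/
def Chained : Prop :=
  ∀ j, ((S.prog j).head?.map Piece.src).getD 0 = 0 ∧
    ((S.prog j).getLast?.map Piece.dst).getD 0 = 0 ∧
    ∀ m, (h : m + 1 < (S.prog j).length) → ((S.prog j)[m]).dst = ((S.prog j)[m + 1]).src

/-- Every loop lasts at least one unit, so loop `i` starts after time `i`. -/
theorem natCast_le_start (hne : ∀ j, S.prog j ≠ []) (i : ℕ) : (i : ℝ) ≤ S.start i := by
  induction i with
  | zero => simpa [start] using zero_le_one.trans S.one_le_t0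
  | succ n ih =>
      have h1 : 1 ≤ S.loopLen (S.j0 + n) := by
        obtain ⟨P, l, hl⟩ := List.exists_cons_of_ne_nil (hne (S.j0 + n))
        have h0 : 0 ≤ (l.map fun Q => Q.len (S.j0 + n)).sum :=
          List.sum_nonneg fun y hy => by
            obtain ⟨Q, -, rfl⟩ := List.mem_map.1 hy
            exact (Q.len_pos _).le
        simp [loopLen, hl]
        linarith [P.one_le_len (S.j0 + n)]
      rw [start_succ, Nat.cast_succ]
      linarith

/-- The sum may be taken over any sufficiently long initial range. -/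
theorem pUnit_eq_range (hne : ∀ j, S.prog j ≠ []) {t : ℝ} {n : ℕ} (hn : ⌈t⌉₊ + 1 ≤ n) (x : X) :
    S.pUnit F τ t x
      = juncMat 0 + ∑ i ∈ range n, ∑ m ∈ range (S.prog (S.j0 + i)).length, S.incr F τ i m t x := by
  rw [pUnit]
  congr 1
  refine sum_subset (range_mono hn) fun i _ hi => sum_eq_zero fun m _ => ?_
  refine S.incr_zero F τ ?_ x
  rw [mem_range, not_lt] at hi
  have h1 : (⌈t⌉₊ : ℝ) ≤ i := by exact_mod_cast (Nat.le_succ _).trans hi
  refine le_trans ?_ (le_add_of_nonneg_right (by norm_num))
  calc t ≤ ⌈t⌉₊ := Nat.le_ceil t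
    _ ≤ i := h1
    _ ≤ S.start i := S.natCast_le_start hne i
    _ = S.pieceStart i 0 := (S.pieceStart_zero i).symm
    _ ≤ S.pieceStart i m := S.pieceStart_mono i (Nat.zero_le m)

/-- Sum of the first `m` increments of a loop, all finished. -/
theorem sum_incr_done (hc : S.Chained) {i m : ℕ} (hm : m ≤ (S.prog (S.j0 + i)).length) {t : ℝ}
    (ht : S.pieceStart i m - 1 / 4 ≤ t) (x : X) :
    ∑ l ∈ range m, S.incr F τ i l t x
      = juncMat (if h : m = 0 then 0 else ((S.prog (S.j0 + i))[m - 1]'(by omega)).dst)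
        - juncMat 0 := by
  induction m with
  | zero => simp
  | succ n ih =>
      have hn : n < (S.prog (S.j0 + i)).length := hm
      have hs := S.pieceStart_succ i n hn
      rw [sum_range_succ, ih hn.le (by linarith [(((S.prog (S.j0 + i))[n]).len_pos (S.j0 + i))])]
      rw [dif_neg (Nat.succ_ne_zero n)]
      simp only [incr, dif_pos hn, Nat.add_sub_cancel]
      rw [Piece.pmat_end F _ _ _ (by linarith [((S.prog (S.j0 + i))[n]).one_le_len (S.j0 + i)]) x]
      have hsrc : (if h : n = 0 then (0 : Fin 3) else ((S.prog (S.j0 + i))[n - 1]'(by omega)).dst)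
          = ((S.prog (S.j0 + i))[n]).src := by
        rcases Nat.eq_zero_or_pos n with rfl | hpos
        · obtain ⟨P, l, hl⟩ := List.exists_cons_of_length_pos (by omega :
            0 < (S.prog (S.j0 + i)).length)
          have h0 := (hc (S.j0 + i)).1
          simp only [hl, List.head?_cons, Option.map_some, Option.getD_some] at h0
          simp [hl, h0]
        · obtain ⟨k, rfl⟩ : ∃ k, n = k + 1 := ⟨n - 1, by omega⟩
          simpa using (hc (S.j0 + i)).2.2 k hn
      rw [hsrc]
      abel

theorem sum_incr_loop (hne : ∀ j, S.prog j ≠ []) (hc : S.Chained) {i : ℕ} {t : ℝ}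
    (ht : S.start (i + 1) - 1 / 4 ≤ t) (x : X) :
    ∑ l ∈ range (S.prog (S.j0 + i)).length, S.incr F τ i l t x = 0 := by
  rw [S.sum_incr_done F τ hc le_rfl (by rwa [S.pieceStart_length]) x]
  have hl : (S.prog (S.j0 + i)).length ≠ 0 := fun h =>
    hne _ (List.length_eq_zero_iff.1 h)
  rw [dif_neg hl]
  have h0 := (hc (S.j0 + i)).2.1
  rw [List.getLast?_eq_getLast_of_ne_nil (hne _), Option.map_some, Option.getD_some,
    List.getLast_eq_getElem] at h0
  rw [h0, sub_self]

/-- On the window of a piece, widened by `1/4` on both sides, the dual metric is that piece. -/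
theorem pUnit_window (hne : ∀ j, S.prog j ≠ []) (hc : S.Chained) {i m : ℕ}
    (hm : m < (S.prog (S.j0 + i)).length) {t : ℝ} (h1 : S.pieceStart i m - 1 / 4 ≤ t)
    (h2 : t ≤ S.pieceStart i (m + 1) + 1 / 4) (x : X) :
    S.pUnit F τ t x
      = ((S.prog (S.j0 + i))[m]).pmat F (S.j0 + i) (τ i) (t - S.pieceStart i m) x := by
  rw [S.pUnit_eq_range F τ hne (n := max (⌈t⌉₊ + 1) (i + 1)) (le_max_left _ _) x]
  rw [sum_eq_single i]
  · have hsplit : ∑ l ∈ range (S.prog (S.j0 + i)).length, S.incr F τ i l t x
        = ∑ l ∈ range (m + 1), S.incr F τ i l t x := by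
      symm
      refine sum_subset (range_mono hm) fun l _ hl => S.incr_zero F τ ?_ x
      rw [mem_range, not_lt] at hl
      exact h2.trans (by linarith [S.pieceStart_mono i hl])
    rw [hsplit, sum_range_succ, S.sum_incr_done F τ hc hm.le h1 x]
    simp only [incr, dif_pos hm]
    have hsrc : (if h : m = 0 then (0 : Fin 3) else ((S.prog (S.j0 + i))[m - 1]'(by omega)).dst)
        = ((S.prog (S.j0 + i))[m]).src := by
      rcases Nat.eq_zero_or_pos m with rfl | hpos
      · obtain ⟨P, l, hl⟩ := List.exists_cons_of_ne_nil (hne (S.j0 + i))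
        have h0 := (hc (S.j0 + i)).1
        simp only [hl, List.head?_cons, Option.map_some, Option.getD_some] at h0
        simp [hl, h0]
      · obtain ⟨k, rfl⟩ : ∃ k, m = k + 1 := ⟨m - 1, by omega⟩
        simpa using (hc (S.j0 + i)).2.2 k hm
    rw [hsrc]
    abel
  · intro i' _ hne'
    rcases lt_or_gt_of_ne hne' with hlt | hgt
    · refine S.sum_incr_loop F τ hne hc ?_ x
      refine le_trans (sub_le_sub_right ?_ _) h1
      calc S.start (i' + 1) ≤ S.start i := S.start_mono hlt
        _ = S.pieceStart i 0 := (S.pieceStart_zero i).symm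
        _ ≤ S.pieceStart i m := S.pieceStart_mono i (Nat.zero_le m)
    · refine sum_eq_zero fun l _ => S.incr_zero F τ ?_ x
      exact h2.trans (by linarith [S.pieceStart_le (m' := l) hgt hm])
  · intro h
    exact absurd (mem_range.2 (lt_of_lt_of_le (Nat.lt_succ_self i) (le_max_right _ _))) h

end Sched

end

end Vale.Agent.P225
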