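import Vale.Agent.P225.Metric.ChangeLap
import Vale.Agent.P225.Metric.Base
import Vale.Agent.P225.Metric.Param
import Mathlib.LinearAlgebra.Matrix.SchurComplement

/-!
P225 (helper29): metrics `dr² + r² P(t, z)⁻¹` on `chartOff`, `t = log r`, `z ∈ S³ × S³`, and their
Laplacian `r⁻² (R R u + (5 + v) R u + ∑ X_p (P_pq X_q u))`, `v = -(log det P)'/2`.
-/

namespace Vale.Agent.P225

open scoped BigOperators
open Set Matrix Finset

noncomputable section

/-- The seven indices as radial plus six. -/
def e7 : Unit ⊕ (Fin 2 × Fin 3) ≃ Fin 7 :=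
  Equiv.ofBijective (Sum.elim (fun _ => 0) idx) (by decide)

theorem e7_inl (u : Unit) : e7 (Sum.inl u) = 0 := rfl

theorem e7_inr (k : Fin 2 × Fin 3) : e7 (Sum.inr k) = idx k := rfl

theorem e7_symm_zero : e7.symm 0 = Sum.inl () := by rw [Equiv.symm_apply_eq, e7_inl]

theorem e7_symm_idx (k : Fin 2 × Fin 3) : e7.symm (idx k) = Sum.inr k := by
  rw [Equiv.symm_apply_eq, e7_inr]

/-- `diag(1, A)`. -/
def lift7 (A : M6) : Matrix (Fin 7) (Fin 7) ℝ :=
  (fromBlocks (1 : Matrix Unit Unit ℝ) 0 0 A).submatrix e7.symm e7.symm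

theorem lift7_zero_zero (A : M6) : lift7 A 0 0 = 1 := by simp [lift7, e7_symm_zero]

theorem lift7_zero_idx (A : M6) (k : Fin 2 × Fin 3) : lift7 A 0 (idx k) = 0 := by
  simp [lift7, e7_symm_zero, e7_symm_idx]

theorem lift7_idx_zero (A : M6) (k : Fin 2 × Fin 3) : lift7 A (idx k) 0 = 0 := by
  simp [lift7, e7_symm_zero, e7_symm_idx]

theorem lift7_idx_idx (A : M6) (p q : Fin 2 × Fin 3) : lift7 A (idx p) (idx q) = A p q := by
  simp [lift7, e7_symm_idx]

theorem lift7_mul (A B : M6) : lift7 A * lift7 B = lift7 (A * B) := by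
  simp [lift7, submatrix_mul_equiv, fromBlocks_multiply]

theorem lift7_one : lift7 1 = 1 := by simp [lift7, fromBlocks_one]

theorem lift7_transpose (A : M6) : (lift7 A)ᵀ = lift7 Aᵀ := by
  simp [lift7, fromBlocks_transpose]

theorem det_lift7 (A : M6) : (lift7 A).det = A.det := by
  simp [lift7]

/-- The metric `dr² + r² P⁻¹`. -/
def warpMetric (P : ℝ → Sph → M6) : MetricField 7 := fun x => Matrix.of fun i j =>
  ∑ a, ∑ b, rsq x * lift7 (P (tlog x) (sph x))⁻¹ a b * baseCo a i x * baseCo b j x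

/-- A smooth local square root `Mb Mbᵀ = P` on `s`. -/
structure WarpLocal (P : ℝ → Sph → M6) (s : Set (Pt 7)) (Mb Nb : Pt 7 → M6) : Prop where
  isOpen : IsOpen s
  subset : s ⊆ chartOff
  smooth_M : ∀ p q, ContDiffOn ℝ 2 (fun y => Mb y p q) s
  smooth_N : ∀ p q, ContDiffOn ℝ 2 (fun y => Nb y p q) s
  inv : ∀ y ∈ s, Nb y * Mb y = 1
  sqrt : ∀ y ∈ s, Mb y * (Mb y)ᵀ = P (tlog y) (sph y)

theorem contDiffOn_lift7 {s : Set (Pt 7)} {A : Pt 7 → M6}
    (h : ∀ p q, ContDiffOn ℝ 2 (fun y => A y p q) s) (a b : Fin 7) :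
    ContDiffOn ℝ 2 (fun y => lift7 (A y) a b) s := by
  obtain ⟨a', rfl⟩ := e7.surjective a
  obtain ⟨b', rfl⟩ := e7.surjective b
  rcases a' with u | p <;> rcases b' with v | q <;> simp only [lift7, submatrix_apply,
    Equiv.symm_apply_apply, fromBlocks_apply₁₁, fromBlocks_apply₁₂, fromBlocks_apply₂₁,
    fromBlocks_apply₂₂]
  · exact contDiffOn_const
  · exact contDiffOn_const
  · exact contDiffOn_const
  · exact h p q

namespace WarpLocal

variable {P : ℝ → Sph → M6} {s : Set (Pt 7)} {Mb Nb : Pt 7 → M6} (h : WarpLocal P s Mb Nb)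

/-- The frame matrix. -/
def frameM (Mb : Pt 7 → M6) (y : Pt 7) : Matrix (Fin 7) (Fin 7) ℝ :=
  (Real.sqrt (rsq y))⁻¹ • lift7 (Mb y)

/-- Its inverse. -/
def frameN (Nb : Pt 7 → M6) (y : Pt 7) : Matrix (Fin 7) (Fin 7) ℝ :=
  Real.sqrt (rsq y) • lift7 (Nb y)

include h

theorem subset_chart : s ⊆ chart := fun _ hy => (h.subset hy).1

theorem sqrt_rsq : ContDiffOn ℝ 2 (fun y => Real.sqrt (rsq y)) s :=
  (contDiffOn_rsq.mono h.subset_chart).sqrt fun _ hy => ne_of_gt (h.subset hy).2

theorem smooth_frameM (a b : Fin 7) : ContDiffOn ℝ 2 (fun y => frameM Mb y a b) s :=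
  (h.sqrt_rsq.inv fun _ hy => (Real.sqrt_pos.2 (h.subset hy).2).ne').mul
    (contDiffOn_lift7 h.smooth_M a b)

theorem smooth_frameN (a b : Fin 7) : ContDiffOn ℝ 2 (fun y => frameN Nb y a b) s :=
  h.sqrt_rsq.mul (contDiffOn_lift7 h.smooth_N a b)

theorem frameN_mul {y : Pt 7} (hy : y ∈ s) : frameN Nb y * frameM Mb y = 1 := by
  have := (Real.sqrt_pos.2 (h.subset hy).2).ne'
  simp [frameN, frameM, smul_smul, lift7_mul, h.inv y hy, lift7_one, this]

theorem frameM_sq {y : Pt 7} (hy : y ∈ s) :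
    frameM Mb y * (frameM Mb y)ᵀ = (rsq y)⁻¹ • lift7 (P (tlog y) (sph y)) := by
  have := Real.mul_self_sqrt (h.subset hy).2.le
  simp [frameM, transpose_smul, smul_smul, lift7_transpose, lift7_mul,
    h.sqrt y hy, ← mul_inv, this]

theorem inv_eq {y : Pt 7} (hy : y ∈ s) : (P (tlog y) (sph y))⁻¹ = (Nb y)ᵀ * Nb y := by
  refine inv_eq_left_inv ?_
  rw [← h.sqrt y hy, Matrix.mul_assoc, ← Matrix.mul_assoc (Nb y), h.inv y hy, Matrix.one_mul,
    ← transpose_mul, mul_eq_one_comm.1 (h.inv y hy), transpose_one]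

/-- The warped metric is the metric of the frame. -/
theorem metric_eq {y : Pt 7} (hy : y ∈ s) :
    changeMetric baseMetric baseField (frameN Nb) y = warpMetric P y := by
  have hs := Real.mul_self_sqrt (h.subset hy).2.le
  have hN : (frameN Nb y)ᵀ * frameN Nb y = rsq y • lift7 ((P (tlog y) (sph y))⁻¹) := by
    simp [frameN, transpose_smul, smul_smul, lift7_transpose, lift7_mul,
      h.inv_eq hy, hs]
  ext i j
  simp only [changeMetric, changeCoframe, warpMetric, of_apply, coframe_base (h.subset hy)]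
  calc ∑ a, (∑ p, frameN Nb y a p * baseCo p i y) * ∑ q, frameN Nb y a q * baseCo q j y
      = ∑ p, ∑ q, ((frameN Nb y)ᵀ * frameN Nb y) p q * baseCo p i y * baseCo q j y := by
        simp only [mul_apply, transpose_apply, Finset.sum_mul, Finset.mul_sum]
        rw [Finset.sum_congr rfl fun a _ => Finset.sum_comm, Finset.sum_comm]
        refine Finset.sum_congr rfl fun p _ => ?_
        rw [Finset.sum_comm]
        exact Finset.sum_congr rfl fun q _ => Finset.sum_congr rfl fun a _ => by ring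
    _ = _ := by simp [hN, mul_assoc]

/-- The warped metric as a cone over the coframe `diag(1, Nb)`. -/
theorem cone_eq {y : Pt 7} (hy : y ∈ s) :
    coneMetric (fun z => lift7 (Nb z)) y = warpMetric P y := by
  have hN : (lift7 (Nb y))ᵀ * lift7 (Nb y) = lift7 ((P (tlog y) (sph y))⁻¹) := by
    simp [lift7_transpose, lift7_mul, h.inv_eq hy]
  ext i j
  simp only [coneMetric, warpMetric, of_apply]
  calc rsq y * ∑ a, (∑ p, lift7 (Nb y) a p * baseCo p i y) * ∑ q, lift7 (Nb y) a q * baseCo q j y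
      = ∑ p, ∑ q, rsq y * ((lift7 (Nb y))ᵀ * lift7 (Nb y)) p q * baseCo p i y * baseCo q j y := by
        simp only [mul_apply, transpose_apply, Finset.sum_mul, Finset.mul_sum]
        rw [Finset.sum_congr rfl fun a _ => Finset.sum_comm, Finset.sum_comm]
        refine Finset.sum_congr rfl fun p _ => ?_
        rw [Finset.sum_comm]
        exact Finset.sum_congr rfl fun q _ => Finset.sum_congr rfl fun a _ => by ring
    _ = _ := by simp [hN]

/-- An orthonormal frame of the warped metric. -/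
theorem isFrame : IsFrame (warpMetric P) s (changeFrame baseField (frameM Mb))
    (changeStruct baseField (fun a b f _ => baseStruct a b f) (frameM Mb) (frameN Nb)) := by
  have hb : IsFrame baseMetric s baseField fun a b f _ => baseStruct a b f :=
    isFrame_base.mono h.isOpen h.subset
  have hc := hb.changeFrame h.smooth_frameM h.smooth_frameN fun y hy => h.frameN_mul hy
  exact
    { isOpen := h.isOpen
      smooth_g := fun i j => (hc.smooth_g i j).congr fun y hy => by rw [h.metric_eq hy]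
      posDef := fun y hy => h.metric_eq hy ▸ hc.posDef y hy
      smooth_e := hc.smooth_e
      smooth_c := hc.smooth_c
      ortho := fun y hy => h.metric_eq hy ▸ hc.ortho y hy
      bracket := hc.bracket }

end WarpLocal

/-- The Laplacian only depends on the metric near the point. -/
theorem laplacian_congr {n : ℕ} {g g' : MetricField n} {s : Set (Pt n)} {x : Pt n} (hs : IsOpen s)
    (hx : x ∈ s) (hg : ∀ y ∈ s, g y = g' y) (u : Pt n → ℝ) :
    laplacian g u x = laplacian g' u x := by
  have e : ∀ i j k, pd (fun y => g y i j) k x = pd (fun y => g' y i j) k x := fun i j k => by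
    simp only [pd]
    rw [Filter.EventuallyEq.fderiv_eq (Filter.eventually_of_mem (hs.mem_nhds hx)
      fun y hy => congrFun (congrFun (hg y hy) i) j)]
  simp only [laplacian, christoffel, e, hg x hx]

/-- The Laplacian of a warped metric. -/
theorem laplacian_warp {P : ℝ → Sph → M6} {s : Set (Pt 7)} {Mb Nb : Pt 7 → M6}
    (h : WarpLocal P s Mb Nb) {x : Pt 7} (hx : x ∈ s) {D : ℝ → ℝ} {D' : ℝ}
    (hdet : ∀ y ∈ s, (P (tlog y) (sph y)).det = D (tlog y)) (hD : HasDerivAt D D' (tlog x))
    {u : Pt 7 → ℝ} (hu : ContDiffAt ℝ 2 u x) :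
    laplacian (warpMetric P) u x = (rsq x)⁻¹ *
      (dirDeriv (fun y => dirDeriv u (baseField 0 y) y) (baseField 0 x) x
        + (5 - D' / (2 * D (tlog x))) * dirDeriv u (baseField 0 x) x
        + ∑ p, dirDeriv (fun y => ∑ q, P (tlog y) (sph y) p q * dirDeriv u (baseField (idx q) y) y)
            (baseField (idx p) x) x) := by
  have hx0 := h.subset hx
  have hr : rsq x ≠ 0 := ne_of_gt hx0.2
  have hb : IsFrame baseMetric s baseField fun a b f _ => baseStruct a b f :=
    isFrame_base.mono h.isOpen h.subset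
  have hPd : ∀ p q, DifferentiableAt ℝ (fun y => P (tlog y) (sph y) p q) x := by
    intro p q
    have d : ∀ a b, DifferentiableAt ℝ (fun y => Mb y a b) x := fun a b =>
      ((h.smooth_M a b).contDiffAt (h.isOpen.mem_nhds hx)).differentiableAt (by norm_num)
    refine DifferentiableAt.congr_of_eventuallyEq
      (DifferentiableAt.fun_sum (u := univ) fun a _ => (d p a).fun_mul (d q a)) ?_
    filter_upwards [h.isOpen.mem_nhds hx] with y hy
    rw [← h.sqrt y hy]
    simp [mul_apply]
  have hri : DifferentiableAt ℝ (fun y => (rsq y)⁻¹) x := (differentiableAt_rsq hx0.1).inv hr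
  have hri' : ∀ v, dirDeriv (fun y => (rsq y)⁻¹) v x
      = -(2 * (xc x ⬝ᵥ dxc x v)) / rsq x ^ 2 := by
    intro v
    have hd := ((hasDerivAt_inv hr).comp_hasFDerivAt x (differentiableAt_rsq hx0.1).hasFDerivAt).fderiv
    have := dirDeriv_rsq hx0.1 v
    simp only [dirDeriv] at this ⊢
    rw [show fderiv ℝ (fun y => (rsq y)⁻¹) x = _ from hd]
    simp [this]
    field_simp
  have hri0 : dirDeriv (fun y => (rsq y)⁻¹) (baseField 0 x) x = -2 * (rsq x)⁻¹ := by
    rw [hri', dxc_baseField_zero hx0.1, show xc x ⬝ᵥ xc x = rsq x from rfl]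
    field_simp
  have hriI : ∀ k, dirDeriv (fun y => (rsq y)⁻¹) (baseField (idx k) x) x = 0 := by
    intro k
    rw [hri', dxc_baseField_idx hx0.1]
    obtain ⟨i, σ⟩ := k
    fin_cases i <;> simp [sfield, qmul_skew]
  have hDx : D (tlog x) ≠ 0 := by
    intro h0
    have h1 := hdet x hx
    rw [← h.sqrt x hx, det_mul, det_transpose, h0] at h1
    have h2 := congrArg Matrix.det (h.inv x hx)
    rw [det_mul, det_one, mul_self_eq_zero.1 h1, mul_zero] at h2
    exact zero_ne_one h2
  have hDt : DifferentiableAt ℝ (fun y => D (tlog y)) x :=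
    hD.differentiableAt.comp x
      (((differentiableAt_rsq hx0.1).log hr).mul_const (1 / 2) |>.congr_of_eventuallyEq
        (Filter.Eventually.of_forall fun y => by simp [tlog]; ring))
  have hDv : ∀ v, dirDeriv (fun y => D (tlog y)) v x = D' * dirDeriv tlog v x := by
    intro v
    have ht : DifferentiableAt ℝ tlog x :=
      ((differentiableAt_rsq hx0.1).log hr).mul_const (1 / 2) |>.congr_of_eventuallyEq
        (Filter.Eventually.of_forall fun y => by simp [tlog]; ring)
    show fderiv ℝ (D ∘ tlog) x v = _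
    rw [(hD.comp_hasFDerivAt x ht.hasFDerivAt).fderiv]
    simp [dirDeriv]
  -- logarithmic derivative of the determinant
  let φ : Fin 7 → ℝ := fun a => if a = 0 then -7 + D' / (2 * D (tlog x)) else 0
  have hφ : ∀ a, dirDeriv (fun y => (WarpLocal.frameM Mb y * (WarpLocal.frameM Mb y)ᵀ).det)
      (baseField a x) x
      = 2 * φ a * (WarpLocal.frameM Mb x * (WarpLocal.frameM Mb x)ᵀ).det := by
    intro a
    rw [dirDeriv_congr h.isOpen hx (h := fun y => (rsq y)⁻¹ ^ 7 * D (tlog y)) (fun y hy => by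
      simp [h.frameM_sq hy, det_smul, det_lift7, hdet y hy])]
    rw [dirDeriv_mul (f := fun y => (rsq y)⁻¹ ^ 7) (hri.pow 7) hDt, hDv, h.frameM_sq hx, det_smul, det_lift7, hdet x hx,
      show dirDeriv (fun y => (rsq y)⁻¹ ^ 7) (baseField a x) x
        = 7 * (rsq x)⁻¹ ^ 6 * dirDeriv (fun y => (rsq y)⁻¹) (baseField a x) x by
      simp only [dirDeriv]; rw [fderiv_fun_pow 7 hri]; simp [mul_assoc]]
    obtain ⟨a', rfl⟩ := e7.surjective a
    rcases a' with _ | k
    · simp only [e7_inl, hri0, dirDeriv_tlog_zero hx0, φ, if_true, Fintype.card_fin]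
      field_simp
    · have hk : idx k ≠ 0 := by
        intro he
        have := congrArg e7.symm he
        rw [e7_symm_idx, e7_symm_zero] at this
        simp at this
      simp [e7_inr, hriI, dirDeriv_tlog_idx hx0, φ, hk]
  have main := hb.laplacian_change h.smooth_frameM h.smooth_frameN (fun y hy => h.frameN_mul hy) hx
    (fun p => baseStruct_trace p) hu hφ
  rw [laplacian_congr h.isOpen hx (fun y hy => (h.metric_eq hy).symm) u, main]
  have dU : ∀ a, DifferentiableAt ℝ (fun y => dirDeriv u (baseField a y) y) x := by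
    intro a
    refine ContDiffAt.differentiableAt (n := 1) ?_ one_ne_zero
    exact (hu.fderiv_right (m := 1) (by norm_num)).clm_apply
      ((contDiffAt_pi.2 fun k => (hb.smooth_e a k).contDiffAt (h.isOpen.mem_nhds hx)).of_le
        (by norm_num))
  -- the two kinds of rows
  have r0 : dirDeriv (fun y => ∑ q, (WarpLocal.frameM Mb y * (WarpLocal.frameM Mb y)ᵀ) 0 q
        * dirDeriv u (baseField q y) y) (baseField 0 x) x
      = (rsq x)⁻¹ * (dirDeriv (fun y => dirDeriv u (baseField 0 y) y) (baseField 0 x) x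
          - 2 * dirDeriv u (baseField 0 x) x) := by
    rw [dirDeriv_congr h.isOpen hx (h := fun y => (rsq y)⁻¹ * dirDeriv u (baseField 0 y) y)
      (fun y hy => by simp [sum_fin7, h.frameM_sq hy, lift7_zero_zero, lift7_zero_idx]),
      dirDeriv_mul hri (dU 0), hri0]
    ring
  have rk : ∀ k, dirDeriv (fun y => ∑ q, (WarpLocal.frameM Mb y * (WarpLocal.frameM Mb y)ᵀ) (idx k) q
        * dirDeriv u (baseField q y) y) (baseField (idx k) x) x
      = (rsq x)⁻¹ * dirDeriv (fun y => ∑ q, P (tlog y) (sph y) k q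
          * dirDeriv u (baseField (idx q) y) y) (baseField (idx k) x) x := by
    intro k
    have hsum : DifferentiableAt ℝ (fun y => ∑ q, P (tlog y) (sph y) k q
        * dirDeriv u (baseField (idx q) y) y) x :=
      DifferentiableAt.fun_sum fun q _ => (hPd k q).fun_mul (dU (idx q))
    rw [dirDeriv_congr h.isOpen hx (h := fun y => (rsq y)⁻¹ * ∑ q, P (tlog y) (sph y) k q
        * dirDeriv u (baseField (idx q) y) y)
      (fun y hy => by
        simp [sum_fin7, h.frameM_sq hy, lift7_idx_zero, lift7_idx_idx, Finset.mul_sum, mul_assoc]),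
      dirDeriv_mul hri hsum, hriI]
    ring
  have p0 : ∀ q, φ 0 * (WarpLocal.frameM Mb x * (WarpLocal.frameM Mb x)ᵀ) 0 q
      = (-7 + D' / (2 * D (tlog x))) * ((rsq x)⁻¹ * lift7 (P (tlog x) (sph x)) 0 q) := fun q => by
    simp [φ, h.frameM_sq hx]
  have pk : ∀ k, φ (idx k) = 0 := fun k => by
    have hk : idx k ≠ 0 := by
      intro he
      have := congrArg e7.symm he
      rw [e7_symm_idx, e7_symm_zero] at this
      simp at this
    simp [φ, hk]
  rw [sum_fin7 (fun p => dirDeriv (fun y => ∑ q, (WarpLocal.frameM Mb y * (WarpLocal.frameM Mb y)ᵀ) p q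
        * dirDeriv u (baseField q y) y) (baseField p x) x),
    sum_fin7 (fun p => ∑ q, φ p * (WarpLocal.frameM Mb x * (WarpLocal.frameM Mb x)ᵀ) p q
        * dirDeriv u (baseField q x) x), r0, Finset.sum_congr rfl fun k _ => rk k]
  simp only [p0, pk, zero_mul, Finset.sum_const_zero, add_zero, sum_fin7 (A := ℝ),
    lift7_zero_zero, lift7_zero_idx, mul_zero]
  rw [← Finset.mul_sum]
  ring

end

end Vale.Agent.P225
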