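import Vale.Agent.P225.Geom.Transform
import Vale.Agent.P225.Geom.Symm

/-!
P225 (helper29): the Laplacian after a change of frame, in divergence form.

If the base frame is unimodular (`∑ a, c p a a = 0`) and the new frame is `e · M` then, with
`P = M Mᵀ`, `Δ u = ∑ e_p (P_pq e_q u) - ∑ φ_p P_pq e_q u`, `φ_p = e_p (log det P) / 2`.
-/

namespace Vale.Agent.P225

open scoped BigOperators
open Set Matrix Finset

noncomputable section

variable {n : ℕ} {g : MetricField n} {s : Set (Pt n)} {e : Fin n → Pt n → Pt n}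
  {c : Fin n → Fin n → Fin n → Pt n → ℝ} {M N : Pt n → Matrix (Fin n) (Fin n) ℝ} {x : Pt n}

/-- Jacobi's formula along a vector. -/
theorem dirDeriv_det {m : Type*} [Fintype m] [DecidableEq m] {A : Pt n → Matrix m m ℝ}
    {B : Matrix m m ℝ} (hA : ∀ i j, DifferentiableAt ℝ (fun y => A y i j) x) (hB : B * A x = 1)
    (v : Pt n) :
    dirDeriv (fun y => (A y).det) v x
      = (A x).det * ∑ i, ∑ j, B i j * dirDeriv (fun y => A y j i) v x := by
  have hadj : adjugate (A x) = (A x).det • B := by
    calc adjugate (A x) = adjugate (A x) * (A x * B) := by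
          rw [mul_eq_one_comm.1 hB, mul_one]
      _ = (A x).det • B := by rw [← mul_assoc, adjugate_mul, smul_mul, one_mul]
  have h1 : HasFDerivAt (fun y => (A y).det) (∑ σ : Equiv.Perm m, ((Equiv.Perm.sign σ : ℤ) : ℝ) •
      ∑ i, (∏ j ∈ univ.erase i, A x (σ j) j) • fderiv ℝ (fun y => A y (σ i) i) x) x := by
    have e : (fun y => (A y).det)
        = fun y => ∑ σ : Equiv.Perm m, ((Equiv.Perm.sign σ : ℤ) : ℝ) * ∏ i, A y (σ i) i :=
      funext fun y => det_apply' _
    rw [e]
    exact HasFDerivAt.fun_sum fun σ _ =>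
      ((HasFDerivAt.finsetProd fun i _ => (hA (σ i) i).hasFDerivAt).const_mul _)
  show fderiv ℝ (fun y => (A y).det) x v = _
  rw [h1.fderiv]
  simp only [_root_.sum_apply, _root_.smul_apply, smul_eq_mul, Finset.mul_sum]
  rw [Finset.sum_comm]
  refine sum_congr rfl fun i _ => ?_
  have h2 : cramer (A x) (fun j => dirDeriv (fun y => A y j i) v x) i
      = ((A x).updateCol i fun j => dirDeriv (fun y => A y j i) v x).det := cramer_apply ..
  rw [cramer_eq_adjugate_mulVec, hadj] at h2
  simp only [mulVec, dotProduct, Matrix.smul_apply, smul_eq_mul, mul_assoc] at h2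
  rw [h2, det_apply']
  refine sum_congr rfl fun σ _ => ?_
  congr 1
  rw [← mul_prod_erase univ _ (mem_univ i), updateCol_self, mul_comm]
  refine congrArg₂ (· * ·) rfl (prod_congr rfl fun j hj => ?_)
  rw [updateCol_ne (ne_of_mem_erase hj)]

theorem dirDeriv_changeFrame (f : Pt n → ℝ) (a : Fin n) :
    dirDeriv f (changeFrame e M a x) x = ∑ p, M x p a * dirDeriv f (e p x) x := by
  simp only [dirDeriv_eq_sum, changeFrame, sum_mul, mul_sum]
  rw [sum_comm]
  exact sum_congr rfl fun p _ => sum_congr rfl fun i _ => by ring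

/-- The trace of the new structure functions. -/
theorem changeStruct_trace (hMN : M x * N x = 1) (htr : ∀ p, ∑ a, c p a a x = 0) (b : Fin n) :
    ∑ f, changeStruct e c M N b f f x
      = ∑ p, M x p b * (∑ f, ∑ h, N x f h * dirDeriv (fun y => M y h f) (e p x) x)
        - ∑ h, dirDeriv (fun y => M y h b) (e h x) x := by
  have hI : ∀ q h, ∑ f, M x q f * N x f h = if q = h then 1 else 0 := fun q h => by
    rw [← one_apply, ← hMN, mul_apply]
  simp only [changeStruct, changeBracket, mul_sub, mul_add, sum_sub_distrib, sum_add_distrib]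
  have e1 : ∑ f, ∑ h, N x f h * ∑ p, ∑ q, M x p b * M x q f * c p q h x = 0 := by
    calc ∑ f, ∑ h, N x f h * ∑ p, ∑ q, M x p b * M x q f * c p q h x
        = ∑ h, ∑ p, ∑ q, (∑ f, M x q f * N x f h) * (M x p b * c p q h x) := by
          rw [sum_comm]
          refine sum_congr rfl fun h _ => ?_
          simp only [mul_sum, sum_mul]
          rw [sum_comm]
          refine sum_congr rfl fun p _ => ?_
          rw [sum_comm]
          exact sum_congr rfl fun q _ => sum_congr rfl fun f _ => by ring
      _ = ∑ p, M x p b * ∑ h, c p h h x := by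
          rw [sum_comm]
          exact sum_congr rfl fun p _ => by simp [hI, mul_sum]
      _ = 0 := by simp [htr]
  have e2 : ∑ f, ∑ h, N x f h * dirDeriv (fun y => M y h f) (changeFrame e M b x) x
      = ∑ p, M x p b * ∑ f, ∑ h, N x f h * dirDeriv (fun y => M y h f) (e p x) x := by
    simp only [dirDeriv_changeFrame, mul_sum]
    rw [sum_congr rfl fun f _ => sum_comm, sum_comm]
    exact sum_congr rfl fun p _ => sum_congr rfl fun f _ => sum_congr rfl fun h _ => by ring
  have e3 : ∑ f, ∑ h, N x f h * dirDeriv (fun y => M y h b) (changeFrame e M f x) x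
      = ∑ h, dirDeriv (fun y => M y h b) (e h x) x := by
    calc ∑ f, ∑ h, N x f h * dirDeriv (fun y => M y h b) (changeFrame e M f x) x
        = ∑ h, ∑ p, (∑ f, M x p f * N x f h) * dirDeriv (fun y => M y h b) (e p x) x := by
          simp only [dirDeriv_changeFrame, mul_sum, sum_mul]
          rw [sum_comm]
          refine sum_congr rfl fun h _ => ?_
          rw [sum_comm]
          exact sum_congr rfl fun p _ => sum_congr rfl fun f _ => by ring
      _ = _ := by simp [hI]
  rw [e1, e2, e3]
  ring

/-- The Laplacian after a change of frame, in divergence form. -/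
theorem IsFrame.laplacian_change (hF : IsFrame g s e c)
    (hM : ∀ i j, ContDiffOn ℝ 2 (fun y => M y i j) s)
    (hN : ∀ i j, ContDiffOn ℝ 2 (fun y => N y i j) s) (hNM : ∀ y ∈ s, N y * M y = 1) (hx : x ∈ s)
    (htr : ∀ p, ∑ a, c p a a x = 0) {u : Pt n → ℝ} (hu : ContDiffAt ℝ 2 u x) {φ : Fin n → ℝ}
    (hφ : ∀ p, dirDeriv (fun y => (M y * (M y)ᵀ).det) (e p x) x
      = 2 * φ p * (M x * (M x)ᵀ).det) :
    laplacian (changeMetric g e N) u x
      = ∑ p, dirDeriv (fun y => ∑ q, (M y * (M y)ᵀ) p q * dirDeriv u (e q y) y) (e p x) x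
        - ∑ p, ∑ q, φ p * (M x * (M x)ᵀ) p q * dirDeriv u (e q x) x := by
  have hF' := hF.changeFrame hM hN hNM
  have dM : ∀ p q, DifferentiableAt ℝ (fun z => M z p q) x := fun p q =>
    ((hM p q).contDiffAt (hF.isOpen.mem_nhds hx)).differentiableAt (by norm_num)
  have de := hF.differentiableAt_e hx
  have dU : ∀ q, DifferentiableAt ℝ (fun y => dirDeriv u (e q y) y) x := by
    intro q
    refine ContDiffAt.differentiableAt (n := 1) ?_ one_ne_zero
    exact (hu.fderiv_right (m := 1) (by norm_num)).clm_apply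
      ((contDiffAt_pi.2 fun k => (hF.smooth_e q k).contDiffAt (hF.isOpen.mem_nhds hx)).of_le
        (by norm_num))
  have dP : ∀ p q, DifferentiableAt ℝ (fun y => (M y * (M y)ᵀ) p q) x := fun p q => by
    simp only [mul_apply, transpose_apply]
    exact DifferentiableAt.fun_sum fun a _ => (dM p a).fun_mul (dM q a)
  -- the logarithmic derivative of `det M`
  have hψ : ∀ p, ∑ f, ∑ h, N x f h * dirDeriv (fun y => M y h f) (e p x) x = φ p := by
    intro p
    have hd := dirDeriv_det (A := M) dM (hNM x hx) (e p x)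
    have hdd : DifferentiableAt ℝ (fun y => (M y).det) x := by
      simp only [det_apply']
      exact DifferentiableAt.fun_sum fun σ _ =>
        ((HasFDerivAt.finsetProd fun i _ => (dM (σ i) i).hasFDerivAt).differentiableAt).const_mul _
    have h := hφ p
    simp only [det_mul, det_transpose] at h
    rw [dirDeriv_mul hdd hdd, hd] at h
    have hne : (M x).det ≠ 0 := fun h0 => by
      have := congrArg Matrix.det (hNM x hx)
      rw [det_mul, h0, mul_zero, det_one] at this
      exact zero_ne_one this
    have hne2 : (M x).det * (M x).det ≠ 0 := mul_ne_zero hne hne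
    refine mul_right_cancel₀ hne2 ?_
    linear_combination h / 2
  rw [hF'.laplacian_frame hx hu, sum_sub_distrib]
  -- second order part
  have h2 : ∀ a, dirDeriv (fun y => dirDeriv u (P225.changeFrame e M a y) y) (P225.changeFrame e M a x) x
      = ∑ p, M x p a * ∑ q, (dirDeriv (fun y => M y q a) (e p x) x * dirDeriv u (e q x) x
          + M x q a * dirDeriv (fun y => dirDeriv u (e q y) y) (e p x) x) := by
    intro a
    rw [dirDeriv_changeFrame]
    refine sum_congr rfl fun p _ => ?_
    congr 1
    rw [show (fun y => dirDeriv u (P225.changeFrame e M a y) y)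
        = fun y => ∑ q, M y q a * dirDeriv u (e q y) y from
      funext fun y => dirDeriv_changeFrame u a, dirDeriv_sum fun q => (dM q a).fun_mul (dU q)]
    exact sum_congr rfl fun q _ => dirDeriv_mul (dM q a) (dU q) _
  -- first order part
  have h1 : ∑ a, ∑ b, frameConn (changeStruct e c M N) a a b x
        * dirDeriv u (P225.changeFrame e M b x) x
      = ∑ b, (∑ p, M x p b * φ p - ∑ h, dirDeriv (fun y => M y h b) (e h x) x)
        * ∑ q, M x q b * dirDeriv u (e q x) x := by
    rw [sum_comm]
    refine sum_congr rfl fun b _ => ?_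
    rw [← sum_mul, dirDeriv_changeFrame]
    congr 1
    have ha : ∀ a, frameConn (changeStruct e c M N) a a b x = changeStruct e c M N b a a x := by
      intro a
      simp only [frameConn]
      linarith [hF'.struct_antisymm hx a b a, hF'.struct_antisymm hx a a b]
    simp only [ha, changeStruct_trace (mul_eq_one_comm.1 (hNM x hx)) htr b, hψ]
  rw [sum_congr rfl fun a _ => h2 a, h1]
  have h3 : ∀ p, dirDeriv (fun y => ∑ q, (M y * (M y)ᵀ) p q * dirDeriv u (e q y) y) (e p x) x
      = ∑ q, ((∑ a, (dirDeriv (fun y => M y p a) (e p x) x * M x q a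
            + M x p a * dirDeriv (fun y => M y q a) (e p x) x)) * dirDeriv u (e q x) x
          + (∑ a, M x p a * M x q a) * dirDeriv (fun y => dirDeriv u (e q y) y) (e p x) x) := by
    intro p
    rw [dirDeriv_sum fun q => (dP p q).fun_mul (dU q)]
    refine sum_congr rfl fun q _ => ?_
    rw [dirDeriv_mul (dP p q) (dU q)]
    simp only [mul_apply, transpose_apply]
    congr 2
    rw [dirDeriv_sum fun a => (dM p a).fun_mul (dM q a)]
    exact sum_congr rfl fun a _ => dirDeriv_mul (dM p a) (dM q a) _
  rw [sum_congr rfl fun p _ => h3 p]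
  simp only [mul_apply, transpose_apply]
  set U := fun q => dirDeriv u (e q x) x with hU
  set W := fun p q => dirDeriv (fun y => dirDeriv u (e q y) y) (e p x) x with hW
  set G := fun p q a => dirDeriv (fun y => M y q a) (e p x) x with hG
  show ∑ a, ∑ p, M x p a * ∑ q, (G p q a * U q + M x q a * W p q)
      - ∑ b, (∑ p, M x p b * φ p - ∑ h, G h h b) * ∑ q, M x q b * U q
    = ∑ p, ∑ q, ((∑ a, (G p p a * M x q a + M x p a * G p q a)) * U q
        + (∑ a, M x p a * M x q a) * W p q)
      - ∑ p, ∑ q, φ p * (∑ a, M x p a * M x q a) * U q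
  have l1 : ∑ a, ∑ p, M x p a * ∑ q, (G p q a * U q + M x q a * W p q)
      = ∑ p, ∑ q, ∑ a, M x p a * (G p q a * U q + M x q a * W p q) := by
    rw [sum_comm]
    refine sum_congr rfl fun p _ => ?_
    rw [sum_comm]
    exact sum_congr rfl fun a _ => mul_sum _ _ _
  have l2 : ∑ b, (∑ p, M x p b * φ p - ∑ h, G h h b) * ∑ q, M x q b * U q
      = ∑ p, ∑ q, ∑ a, (M x p a * φ p - G p p a) * (M x q a * U q) := by
    conv_rhs => rw [sum_congr rfl fun p _ => sum_comm, sum_comm]
    refine sum_congr rfl fun a _ => ?_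
    rw [← sum_sub_distrib, sum_mul]
    exact sum_congr rfl fun p _ => mul_sum _ _ _
  rw [l1, l2]
  simp only [← sum_sub_distrib]
  refine sum_congr rfl fun p _ => sum_congr rfl fun q _ => ?_
  rw [sum_mul, sum_mul, mul_sum, sum_mul, ← sum_add_distrib, ← sum_sub_distrib]
  exact sum_congr rfl fun a _ => by ring

end

end Vale.Agent.P225
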