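import Vale.Agent.P225.Metric.Local
import Vale.Agent.P225.Assembly.Growth

/-!
P225 (helper29): the budget of the schedule.  Speeds of the normalised weights are `O(1/len)` and
the drift of `dFun` dominates their squares: `K (j+1)^(-10) ≤ -v' - v - v²/3`.
-/

namespace Vale.Agent.P225

open scoped BigOperators ContDiff
open Set Filter Topology

noncomputable section

/-- The derivative of `vFun`. -/
def vFun' (κ t : ℝ) : ℝ := 27 / 128 * κ * t ^ (-(17 / 8) : ℝ)

theorem hasDerivAt_vFun_budget (κ : ℝ) {t : ℝ} (ht : 0 < t) :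
    HasDerivAt (vFun κ) (vFun' κ t) t := by
  refine ((Real.hasDerivAt_rpow_const (p := (-(9 / 8) : ℝ)) (Or.inl ht.ne')).const_mul
    (-(3 / 16) * κ)).congr_deriv ?_
  rw [vFun', show (-(9 / 8) - 1 : ℝ) = -(17 / 8) by norm_num]
  ring

/-- The drift dominates squared speeds. -/
theorem radial_budget {A K κ : ℝ} (hA : 0 < A) (hκ : 0 < κ) :
    ∃ N : ℕ, ∀ j : ℕ, N ≤ j → ∀ t : ℝ, 4 ≤ t → κ ≤ t → t ≤ A * ((j : ℝ) + 1) ^ 8 →
      K / ((j : ℝ) + 1) ^ 10 ≤ -vFun' κ t - vFun κ t - vFun κ t ^ 2 / 3 := by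
  set c : ℝ := A ^ (-(9 / 8) : ℝ) with hc
  have hc0 : 0 < c := Real.rpow_pos_of_pos hA _
  obtain ⟨N, hN⟩ := exists_nat_ge (32 * |K| / (3 * κ * c))
  refine ⟨N, fun j hj t h4 hκt htA => ?_⟩
  have ht : (0 : ℝ) < t := by linarith
  have hj1 : (0 : ℝ) < (j : ℝ) + 1 := by positivity
  set p : ℝ := t ^ (-(9 / 8) : ℝ) with hp
  have hp0 : 0 < p := Real.rpow_pos_of_pos ht _
  have hpt : p ≤ t⁻¹ := by
    rw [hp, ← Real.rpow_neg_one]
    exact Real.rpow_le_rpow_of_exponent_le (by linarith) (by norm_num)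
  have hq : t ^ (-(17 / 8) : ℝ) = p * t⁻¹ := by
    rw [hp, ← Real.rpow_neg_one, ← Real.rpow_add ht]
    norm_num
  have hlow : c * (((j : ℝ) + 1) ^ 9)⁻¹ ≤ p := by
    refine le_of_eq_of_le ?_ (Real.rpow_le_rpow_of_nonpos ht htA (by norm_num : (-(9 / 8) : ℝ) ≤ 0))
    rw [Real.mul_rpow hA.le (by positivity), hc, ← Real.rpow_natCast, ← Real.rpow_natCast,
      ← Real.rpow_neg hj1.le, ← Real.rpow_mul hj1.le]
    norm_num
  have h1 : vFun κ t ^ 2 ≤ 9 / 256 * (κ * p) := by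
    have : κ * p ≤ 1 := by
      calc κ * p ≤ κ * t⁻¹ := by gcongr
        _ ≤ 1 := by rw [← div_eq_mul_inv, div_le_one ht]; exact hκt
    simp only [vFun, ← hp]
    nlinarith [mul_pos hκ hp0]
  have h2 : vFun' κ t ≤ 27 / 512 * (κ * p) := by
    have : t⁻¹ ≤ 1 / 4 := by rw [inv_eq_one_div]; gcongr
    simp only [vFun', hq]
    nlinarith [mul_pos hκ hp0]
  have h3 : K / ((j : ℝ) + 1) ^ 10 ≤ 3 / 32 * (κ * p) := by
    have hNj : 32 * |K| / (3 * κ * c) ≤ (j : ℝ) + 1 := by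
      have : (N : ℝ) ≤ j := by exact_mod_cast hj
      linarith
    rw [div_le_iff₀ (by positivity)] at hNj
    calc K / ((j : ℝ) + 1) ^ 10 ≤ |K| / ((j : ℝ) + 1) ^ 10 := by
          gcongr; exact le_abs_self K
      _ ≤ (3 / 32 * κ * c * ((j : ℝ) + 1)) / ((j : ℝ) + 1) ^ 10 := by gcongr; linarith
      _ = 3 / 32 * (κ * (c * (((j : ℝ) + 1) ^ 9)⁻¹)) := by field_simp
      _ ≤ 3 / 32 * (κ * p) := by gcongr
  have h4 : vFun κ t = -(3 / 16) * (κ * p) := by simp only [vFun, ← hp]; ring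
  nlinarith [mul_pos hκ hp0]

/-- Loop ends are `O(j^8)`. -/
theorem Sched.start_le (S : Sched) {M : ℕ} (hlen : ∀ j, (S.prog j).length ≤ M)
    (hpow : ∀ j, ∀ P ∈ S.prog j, P.power ≤ 7) (i : ℕ) :
    S.start i ≤ S.t0 + M * ((S.j0 + i : ℕ) : ℝ) ^ 8 := by
  induction i with
  | zero => simp only [start, Finset.range_zero, Finset.sum_empty]; simp; positivity
  | succ n ih =>
      rw [S.start_succ]
      have h1 := S.loopLen_le hlen hpow (S.j0 + n)
      have h2 : ((S.j0 + n : ℕ) : ℝ) ^ 8 + (((S.j0 + n : ℕ) : ℝ) + 1) ^ 7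
          ≤ ((S.j0 + (n + 1) : ℕ) : ℝ) ^ 8 := by
        set a : ℝ := ((S.j0 + n : ℕ) : ℝ) with ha
        have ha0 : 0 ≤ a := Nat.cast_nonneg _
        have he : ((S.j0 + (n + 1) : ℕ) : ℝ) = a + 1 := by rw [ha]; push_cast; ring
        rw [he]
        have : a ^ 7 ≤ (a + 1) ^ 7 := by gcongr; linarith
        nlinarith [mul_le_mul_of_nonneg_left this ha0]
      nlinarith [(Nat.cast_nonneg M : (0 : ℝ) ≤ M)]

/-- A family `Ψ η x`, constant for `x` near `(-∞,0]` and `[1,∞)`, has bounded derivatives. -/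
theorem exists_profile_bound {Ψ : ℝ → ℝ → ℝ}
    (h : ContDiffOn ℝ ∞ (fun z : ℝ × ℝ => Ψ z.1 z.2) (Ioo (-(1 / 3) : ℝ) (1 / 3) ×ˢ univ))
    (hl : ∀ η, ∀ x ≤ 1 / 4, Ψ η x = Ψ η 0) (hr : ∀ η, ∀ x ≥ 3 / 4, Ψ η x = Ψ η 1) :
    ∃ C : ℝ, 0 ≤ C ∧ ∀ η ∈ Icc (-(1 / 4) : ℝ) (1 / 4), ∀ L : ℝ, 1 ≤ L → ∀ a s : ℝ,
      |deriv (fun t => Ψ η ((t - a) / L)) s| ≤ C / L ∧
        |deriv (deriv fun t => Ψ η ((t - a) / L)) s| ≤ C / L ^ 2 := by
  set U := Ioo (-(1 / 3) : ℝ) (1 / 3) ×ˢ (univ : Set ℝ)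
  have hU : IsOpen U := isOpen_Ioo.prod isOpen_univ
  set F : ℝ × ℝ → ℝ := fun z => fderiv ℝ (fun z : ℝ × ℝ => Ψ z.1 z.2) z (0, 1)
  have hF : ContDiffOn ℝ ∞ F U :=
    (h.fderiv_of_isOpen hU (m := ∞) (by simp)).clm_apply contDiffOn_const
  set G : ℝ × ℝ → ℝ := fun z => fderiv ℝ F z (0, 1)
  have hG : ContDiffOn ℝ ∞ G U :=
    (hF.fderiv_of_isOpen hU (m := ∞) (by simp)).clm_apply contDiffOn_const
  have hK : Icc (-(1 / 4) : ℝ) (1 / 4) ×ˢ Icc (0 : ℝ) 1 ⊆ U := fun z hz =>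
    ⟨⟨by linarith [hz.1.1], by linarith [hz.1.2]⟩, mem_univ _⟩
  obtain ⟨C1, h1⟩ := ((isCompact_Icc.prod isCompact_Icc).exists_bound_of_continuousOn
    (hF.continuousOn.mono hK))
  obtain ⟨C2, h2⟩ := ((isCompact_Icc.prod isCompact_Icc).exists_bound_of_continuousOn
    (hG.continuousOn.mono hK))
  refine ⟨max (max C1 C2) 0, le_max_right _ _, fun η hη L hL a s => ?_⟩
  have hL0 : (0 : ℝ) < L := by linarith
  set C := max (max C1 C2) 0
  have hC : 0 ≤ C := le_max_right _ _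
  have mem : ∀ x, (η, x) ∈ U := fun x =>
    ⟨⟨by linarith [hη.1], by linarith [hη.2]⟩, mem_univ _⟩
  have hd : ∀ {H : ℝ × ℝ → ℝ}, ContDiffOn ℝ ∞ H U → ∀ t,
      HasDerivAt (fun t => H (η, (t - a) / L)) (fderiv ℝ H (η, (t - a) / L) (0, 1) / L) t := by
    intro H hH t
    have h0 : HasDerivAt (fun t => (η, (t - a) / L)) ((0 : ℝ), 1 / L) t :=
      (hasDerivAt_const t η).prodMk (((hasDerivAt_id t).sub_const a).div_const L)
    refine (((hH.differentiableOn (by simp)).differentiableAt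
      (hU.mem_nhds (mem ((t - a) / L)))).hasFDerivAt.comp_hasDerivAt t h0).congr_deriv ?_
    rw [show ((0 : ℝ), 1 / L) = (1 / L) • ((0 : ℝ), (1 : ℝ)) by simp, map_smul]
    simp [div_eq_mul_inv, mul_comm]
  have e1 : deriv (fun t => Ψ η ((t - a) / L)) = fun t => F (η, (t - a) / L) / L :=
    funext fun t => (hd h t).deriv
  have e2 : deriv (deriv fun t => Ψ η ((t - a) / L)) s = G (η, (s - a) / L) / L / L := by
    rw [e1]; exact ((hd hF s).div_const L).deriv
  have hzero : ∀ x : ℝ, x < 0 ∨ 1 < x → F (η, x) = 0 ∧ G (η, x) = 0 := by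
    intro x hx
    have hev : ∀ᶠ y in 𝓝 x, Ψ η y = Ψ η x := by
      rcases hx with hx | hx
      · filter_upwards [Iio_mem_nhds hx] with y hy
        rw [hl η y (by linarith [mem_Iio.1 hy]), hl η x (by linarith)]
      · filter_upwards [Ioi_mem_nhds hx] with y hy
        rw [hr η y (by linarith [mem_Ioi.1 hy]), hr η x (by linarith)]
    have hp : ∀ {H : ℝ × ℝ → ℝ}, ContDiffOn ℝ ∞ H U → ∀ y,
        HasDerivAt (fun y => H (η, y)) (fderiv ℝ H (η, y) (0, 1)) y := fun hH y =>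
      ((hH.differentiableOn (by simp)).differentiableAt
        (hU.mem_nhds (mem _))).hasFDerivAt.comp_hasDerivAt y
          ((hasDerivAt_const y η).prodMk (hasDerivAt_id y))
    have f0 : ∀ᶠ y in 𝓝 x, F (η, y) = 0 := by
      filter_upwards [hev.eventually_nhds] with y hy
      have : HasDerivAt (fun y => Ψ η y) 0 y :=
        (hasDerivAt_const y (Ψ η x)).congr_of_eventuallyEq hy
      exact (hp h y).unique this
    exact ⟨f0.self_of_nhds, (hp hF x).unique
      ((hasDerivAt_const x (0 : ℝ)).congr_of_eventuallyEq f0)⟩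
  have bd : ∀ x, |F (η, x)| ≤ C ∧ |G (η, x)| ≤ C := by
    intro x
    rcases em (x ∈ Icc (0 : ℝ) 1) with hx | hx
    · exact ⟨(h1 (η, x) ⟨hη, hx⟩).trans ((le_max_left _ _).trans (le_max_left _ _)),
        (h2 (η, x) ⟨hη, hx⟩).trans ((le_max_right _ _).trans (le_max_left _ _))⟩
    · obtain ⟨a1, a2⟩ := hzero x (by
        rcases lt_or_ge x 0 with h' | h'
        · exact Or.inl h'
        · exact Or.inr (not_le.1 fun h'' => hx ⟨h', h''⟩))
      simp [a1, a2, hC]
  constructor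
  · rw [e1]
    simp only [abs_div, abs_of_pos hL0]
    gcongr
    exact (bd _).1
  · rw [e2, div_div, abs_div, abs_of_pos (mul_pos hL0 hL0), pow_two]
    gcongr
    exact (bd _).2

/-- Speeds of the normalised weights of every piece. -/
theorem exists_speed_bound : ∃ C : ℝ, 0 ≤ C ∧ ∀ (P : Piece) (j : ℕ) (τ : ℕ → ℝ), P.Small j τ →
    ∀ a s i, |deriv (fun t => wNorm 1 (P.raw j τ (t - a)) i) s| ≤ C / P.len j ∧
      |deriv (deriv fun t => wNorm 1 (P.raw j τ (t - a)) i) s| ≤ C / P.len j ^ 2 := by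
  have hst : ∀ {f : ℝ × ℝ → ℝ} {U : Set (ℝ × ℝ)}, ContDiffOn ℝ ∞ f U →
      ContDiffOn ℝ ∞ (fun z => Real.smoothTransition (f z)) U := fun hf =>
    Real.smoothTransition.contDiff.comp_contDiffOn hf
  have hnorm : ∀ {r : ℝ × ℝ → Fin 3 → ℝ} {U : Set (ℝ × ℝ)},
      (∀ k, ContDiffOn ℝ ∞ (fun z => r z k) U) → (∀ z ∈ U, 0 < wdet (r z)) →
      ∀ k, ContDiffOn ℝ ∞ (fun z => wNorm 1 (r z) k) U := by
    intro r U hr hpos k
    simp only [wNorm, one_mul]
    refine (hr k).mul (ContDiffOn.sqrt (contDiffOn_const.div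
      ((((hr 0).mul (hr 1)).add ((hr 0).mul (hr 2))).add ((hr 1).mul (hr 2)))
      fun z hz => (hpos z hz).ne') fun z hz => (one_div_pos.2 (hpos z hz)).ne')
  set U := Ioo (-(1 / 3) : ℝ) (1 / 3) ×ˢ (univ : Set ℝ)
  -- the three profiles, as functions of amplitude and phase
  let prof : Fin 3 → ℝ × ℝ → Fin 3 → ℝ := fun kind z =>
    ![rawExc (z.1 * bump z.2), rawTransit z.2, rawTransit (1 - z.2)] kind
  have hsm : ∀ kind k, ContDiffOn ℝ ∞ (fun z => prof kind z k) U := by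
    intro kind k
    have hb : ContDiffOn ℝ ∞ (fun z : ℝ × ℝ => z.1 * bump z.2) U :=
      contDiffOn_fst.mul (contDiff_bump.comp_contDiffOn contDiffOn_snd)
    fin_cases kind <;> fin_cases k <;> simp [prof, rawExc, rawTransit]
    all_goals first
      | exact contDiffOn_const
      | exact hb
      | exact contDiffOn_const.sub (hst ((contDiffOn_const.mul contDiffOn_snd).sub contDiffOn_const))
      | exact hst ((contDiffOn_const.mul contDiffOn_snd).sub contDiffOn_const)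
      | exact contDiffOn_const.sub (hst ((contDiffOn_const.mul
          (contDiffOn_const.sub contDiffOn_snd)).sub contDiffOn_const))
      | exact hst ((contDiffOn_const.mul (contDiffOn_const.sub contDiffOn_snd)).sub contDiffOn_const)
  have hpos : ∀ kind, ∀ z ∈ U, 0 < wdet (prof kind z) := by
    intro kind z hz
    fin_cases kind
    · have hb := bump_mem z.2
      have h1 : |z.1 * bump z.2| ≤ 1 / 3 := by
        rw [abs_mul, abs_of_nonneg hb.1]
        exact (mul_le_of_le_one_right (abs_nonneg _) hb.2).trans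
          (abs_le.2 ⟨by linarith [hz.1.1], hz.1.2.le⟩)
      simp [prof, wdet, rawExc]
      linarith [(abs_le.1 h1).1]
    · exact (rawTransit_ok _).det
    · exact (rawTransit_ok _).det
  have key : ∀ kind k, ∃ C : ℝ, 0 ≤ C ∧ ∀ η ∈ Icc (-(1 / 4) : ℝ) (1 / 4), ∀ L : ℝ, 1 ≤ L → ∀ a s : ℝ,
      |deriv (fun t => wNorm 1 (prof kind (η, (t - a) / L)) k) s| ≤ C / L ∧
        |deriv (deriv fun t => wNorm 1 (prof kind (η, (t - a) / L)) k) s| ≤ C / L ^ 2 := by
    intro kind k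
    refine exists_profile_bound (Ψ := fun η x => wNorm 1 (prof kind (η, x)) k)
      (hnorm (hsm kind) (hpos kind) k) (fun η x hx => ?_) fun η x hx => ?_
    · fin_cases kind <;> simp [prof]
      · rw [bump_zero_of_le hx, bump_zero_of_le (by norm_num : (0 : ℝ) ≤ 1 / 4)]
      · rw [rawTransit_left hx, rawTransit_left (by norm_num : (0 : ℝ) ≤ 1 / 4)]
      · rw [rawTransit_right (by linarith : 3 / 4 ≤ 1 - x),
          rawTransit_right (by norm_num : (3 / 4 : ℝ) ≤ 1)]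
    · fin_cases kind <;> simp [prof]
      · rw [bump_zero_of_ge hx, bump_zero_of_ge (by norm_num : (3 / 4 : ℝ) ≤ 1)]
      · rw [rawTransit_right hx, rawTransit_right (by norm_num : (3 / 4 : ℝ) ≤ 1)]
      · rw [rawTransit_left (by linarith : 1 - x ≤ 1 / 4),
          rawTransit_left (by norm_num : (0 : ℝ) ≤ 1 / 4)]
  choose C hC0 hC using key
  refine ⟨∑ kind, ∑ k, C kind k,
    Finset.sum_nonneg fun kind _ => Finset.sum_nonneg fun k _ => hC0 kind k, ?_⟩
  intro P j τ hsmall a s i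
  set T := ∑ kind, ∑ k, C kind k
  have hl := P.one_le_len j
  have hT : ∀ kind k, C kind k ≤ T := fun kind k =>
    (Finset.single_le_sum (fun k _ => hC0 kind k) (Finset.mem_univ k)).trans
      (Finset.single_le_sum (f := fun kind => ∑ k, C kind k)
        (fun kind _ => Finset.sum_nonneg fun k _ => hC0 kind k) (Finset.mem_univ kind))
  have hT0 : 0 ≤ T := Finset.sum_nonneg fun kind _ => Finset.sum_nonneg fun k _ => hC0 kind k
  have hrot : ∀ (n : Fin 3) (w : Fin 3 → ℝ) (k : Fin 3),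
      wNorm 1 (rotW n w) k = wNorm 1 w (k - n) := fun n w k => by
    simp [wNorm, wdet_rotW, rotW]
  -- reduce every piece to a profile or a constant
  have fin : ∀ kind k η, η ∈ Icc (-(1 / 4) : ℝ) (1 / 4) →
      (fun t => wNorm 1 (P.raw j τ (t - a)) i)
        = (fun t => wNorm 1 (prof kind (η, (t - a) / P.len j)) k) →
      |deriv (fun t => wNorm 1 (P.raw j τ (t - a)) i) s| ≤ T / P.len j ∧
        |deriv (deriv fun t => wNorm 1 (P.raw j τ (t - a)) i) s| ≤ T / P.len j ^ 2 := by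
    intro kind k η hη e
    obtain ⟨b1, b2⟩ := hC kind k η hη (P.len j) hl a s
    rw [e]
    exact ⟨b1.trans (by gcongr; exact hT kind k), b2.trans (by gcongr; exact hT kind k)⟩
  have hconst : ∀ c : ℝ, (fun t => wNorm 1 (P.raw j τ (t - a)) i) = (fun _ => c) →
      |deriv (fun t => wNorm 1 (P.raw j τ (t - a)) i) s| ≤ T / P.len j ∧
        |deriv (deriv fun t => wNorm 1 (P.raw j τ (t - a)) i) s| ≤ T / P.len j ^ 2 := by
    intro c e
    have hpos : 0 < P.len j := P.len_pos j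
    rw [e]
    simp
    exact ⟨div_nonneg hT0 hpos.le, by positivity⟩
  have h0 : (0 : ℝ) ∈ Icc (-(1 / 4) : ℝ) (1 / 4) := ⟨by norm_num, by norm_num⟩
  cases P with
  | wait J q => exact hconst (wNorm 1 (rotW J (rawExc 0)) i) rfl
  | ins f k => exact hconst (wNorm 1 (rawExc 0) i) rfl
  | exc J g k =>
      refine fin 0 (i - J) (τ k / (Piece.exc J g k).len j) ?_ ?_
      · have hpos := (Piece.exc J g k).len_pos j
        refine abs_le.1 ?_
        rw [abs_div, abs_of_pos hpos, div_le_iff₀ hpos]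
        have h' : |τ k| ≤ (Piece.exc J g k).len j / 4 := hsmall
        linarith
      · funext t; simp [prof, Piece.raw, hrot]
  | out J =>
      rcases (by decide : ∀ J : Fin 3, J = 0 ∨ J = 1 ∨ J = 2) J with rfl | rfl | rfl
      · exact hconst (wNorm 1 (rawExc 0) i) rfl
      · exact fin 1 i 0 h0 (by funext t; simp [prof, Piece.raw])
      · exact fin 2 (i - 2) 0 h0 (by funext t; simp [prof, Piece.raw, hrot])
  | back J =>
      rcases (by decide : ∀ J : Fin 3, J = 0 ∨ J = 1 ∨ J = 2) J with rfl | rfl | rfl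
      · exact hconst (wNorm 1 (rawExc 0) i) rfl
      · exact fin 2 i 0 h0 (by funext t; simp [prof, Piece.raw])
      · exact fin 1 (i - 2) 0 h0 (by funext t; simp [prof, Piece.raw, hrot])

end

end Vale.Agent.P225
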