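import Vale.Agent.P225.Metric.Root

/-!
P225 (helper29): the end metric near every point is one piece, with a smooth square root; its
determinant is `dFun⁻³`.
-/

namespace Vale.Agent.P225

open scoped BigOperators ContDiff
open Set Matrix

noncomputable section

/-- The fields of the model are smooth. -/
structure ModelSmooth (F : ModelFields Sph) : Prop where
  iso_smooth : ∀ J g p q, ContDiffOn ℝ ∞ (fun x => F.iso J g x p q) punct
  nil_smooth : ∀ f p q, ContDiffOn ℝ ∞ (fun x => F.nil f x p q) punct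

theorem det_one_add_of_sq_zero {A : M6} (h : A * A = 0) : (1 + A).det = 1 := by
  have hn : IsNilpotent A := ⟨2, by rw [pow_two, h]⟩
  have hc : A.charpoly = Polynomial.X ^ Fintype.card (Fin 2 × Fin 3) :=
    sub_eq_zero.1 (Matrix.isNilpotent_charpoly_sub_pow_of_isNilpotent hn).eq_zero
  have he := Matrix.eval_charpoly A (-1)
  rw [hc] at he
  simp only [Polynomial.eval_pow, Polynomial.eval_X, Fintype.card_prod, Fintype.card_fin] at he
  have : Matrix.scalar (Fin 2 × Fin 3) (-1 : ℝ) - A = -(1 + A) := by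
    rw [map_neg, map_one]; abel
  rw [this, det_neg, Fintype.card_prod, Fintype.card_fin, Fintype.card_fin] at he
  norm_num at he
  linarith

theorem bump_mem (x : ℝ) : bump x ∈ Icc (0 : ℝ) 1 :=
  ⟨mul_nonneg (Real.smoothTransition.nonneg _) (Real.smoothTransition.nonneg _),
    mul_le_one₀ (Real.smoothTransition.le_one _) (Real.smoothTransition.nonneg _)
      (Real.smoothTransition.le_one _)⟩

theorem contDiff_bump {n : ℕ∞} : ContDiff ℝ n bump := by
  unfold bump
  exact (Real.smoothTransition.contDiff.comp (by fun_prop)).mul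
    (Real.smoothTransition.contDiff.comp (by fun_prop))

/-- Weights with nonnegative entries and positive pair sums, or a short excursion. -/
structure RawOk (w : Fin 3 → ℝ) : Prop where
  pair : ∀ i, 0 < w i + w (i + 2)
  det : 0 < wdet w

theorem RawOk.rot {w : Fin 3 → ℝ} (h : RawOk w) (n : Fin 3) : RawOk (rotW n w) where
  pair i := by
    have := h.pair (i - n)
    simpa [rotW, sub_add_eq_add_sub] using this
  det := by rw [wdet_rotW]; exact h.det

theorem rawExc_ok {x : ℝ} (hx : -(1 / 4) ≤ x) : RawOk (rawExc x) where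
  pair i := by fin_cases i <;> simp [rawExc, show (2 + 2 : Fin 3) = 1 from rfl] <;> linarith
  det := by simp [wdet, rawExc]; linarith

theorem rawTransit_ok (x : ℝ) : RawOk (rawTransit x) := by
  have h1 := Real.smoothTransition.nonneg (4 * x - 1)
  have h2 := Real.smoothTransition.le_one (4 * x - 2)
  rcases le_or_gt (1 / 2) x with hx | hx
  · have e := Real.smoothTransition.one_of_one_le (by linarith : 1 ≤ 4 * x - 1)
    have hr : rawTransit x = ![1 - Real.smoothTransition (4 * x - 2), 1, 1] := by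
      simp [rawTransit, e]
    rw [hr]
    refine ⟨fun i => ?_, ?_⟩
    · fin_cases i <;> simp [show (2 + 2 : Fin 3) = 1 from rfl] <;> linarith
    · simp [wdet]; linarith
  · have e := Real.smoothTransition.zero_of_nonpos (by linarith : 4 * x - 2 ≤ 0)
    have hr : rawTransit x = rawExc (Real.smoothTransition (4 * x - 1)) := by
      simp [rawTransit, rawExc, e]
    rw [hr]
    exact rawExc_ok (by linarith)

/-- Amplitudes are small compared with the duration. -/
def Piece.Small (P : Piece) (j : ℕ) (τ : ℕ → ℝ) : Prop :=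
  match P with
  | .exc _ _ k => |τ k| ≤ P.len j / 4
  | _ => True

theorem Piece.raw_ok (P : Piece) (j : ℕ) (τ : ℕ → ℝ) (h : P.Small j τ) (s : ℝ) :
    RawOk (P.raw j τ s) := by
  have h0 : RawOk (rawExc 0) := rawExc_ok (by norm_num)
  cases P with
  | wait J q => exact h0.rot J
  | exc J g k =>
      refine (rawExc_ok ?_).rot J
      have hl := (Piece.exc J g k).len_pos j
      have hb := bump_mem (s / (Piece.exc J g k).len j)
      have h1 : |τ k / (Piece.exc J g k).len j| ≤ 1 / 4 := by
        rw [abs_div, abs_of_pos hl, div_le_iff₀ hl]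
        have h' : |τ k| ≤ (Piece.exc J g k).len j / 4 := h
        linarith
      have h2 : |τ k / (Piece.exc J g k).len j * bump (s / (Piece.exc J g k).len j)| ≤ 1 / 4 := by
        rw [abs_mul, abs_of_nonneg hb.1]
        exact (mul_le_of_le_one_right (abs_nonneg _) hb.2).trans h1
      linarith [(abs_le.1 h2).1]
  | out J =>
      simp only [raw]
      split_ifs
      · exact h0
      · exact rawTransit_ok _
      · exact (rawTransit_ok _).rot 2
  | back J =>
      simp only [raw]
      split_ifs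
      · exact h0
      · exact rawTransit_ok _
      · exact (rawTransit_ok _).rot 2
  | ins f k => exact h0

theorem wdet_wNorm_one {w : Fin 3 → ℝ} (h : 0 < wdet w) : wdet (wNorm 1 w) = 1 := by
  have hs := Real.mul_self_sqrt (one_div_pos.2 h).le
  have e : wdet (wNorm 1 w) = wdet w * (Real.sqrt (1 / wdet w) * Real.sqrt (1 / wdet w)) := by
    simp only [wdet, wNorm, one_mul]; ring
  rw [e, hs, mul_one_div, div_self h.ne']

theorem wpos_norm {w : Fin 3 → ℝ} (h : RawOk w) : WPos (wNorm 1 w) where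
  first := by
    have := h.pair 0
    simp only [wNorm, ← add_mul]
    exact mul_pos (by simpa using this) (Real.sqrt_pos.2 (one_div_pos.2 (by simpa using h.det)))
  det := by rw [wdet_wNorm_one h.det]; exact one_pos

theorem contDiff_raw (P : Piece) (j : ℕ) (τ : ℕ → ℝ) (i : Fin 3) :
    ContDiff ℝ ∞ fun s => P.raw j τ s i := by
  have hexc : ∀ (f : ℝ → ℝ), ContDiff ℝ ∞ f → ∀ k : Fin 3,
      ContDiff ℝ ∞ fun s => rawExc (f s) k := fun f hf k => by
    fin_cases k <;> simp [rawExc] <;> first | exact hf | exact contDiff_const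
  have htr : ∀ (f : ℝ → ℝ), ContDiff ℝ ∞ f → ∀ k : Fin 3,
      ContDiff ℝ ∞ fun s => rawTransit (f s) k := fun f hf k => by
    fin_cases k <;> simp [rawTransit]
    · exact contDiff_const.sub
        (Real.smoothTransition.contDiff.comp ((contDiff_const.mul hf).sub contDiff_const))
    · exact contDiff_const
    · exact Real.smoothTransition.contDiff.comp ((contDiff_const.mul hf).sub contDiff_const)
  have hl : ∀ L : ℝ, ContDiff ℝ ∞ fun s : ℝ => s / L := fun L => contDiff_id.div_const L
  cases P with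
  | wait J q => exact contDiff_const
  | exc J g k =>
      simp only [Piece.raw, rotW]
      exact hexc _ (contDiff_const.mul (contDiff_bump.comp (hl _))) _
  | out J =>
      simp only [Piece.raw]
      split_ifs
      · exact contDiff_const
      · exact htr _ (hl _) _
      · simp only [rotW]; exact htr _ (contDiff_const.sub (hl _)) _
  | back J =>
      simp only [Piece.raw]
      split_ifs
      · exact contDiff_const
      · exact htr _ (contDiff_const.sub (hl _)) _
      · simp only [rotW]; exact htr _ (hl _) _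
  | ins f k => exact contDiff_const

variable (F : ModelFields Sph)

/-- The frame of a piece at its junction. -/
def Piece.twist (P : Piece) (j : ℕ) (τ : ℕ → ℝ) (s : ℝ) (x : Sph) : M6 :=
  match P with
  | .exc J g _ => F.iso J g x
  | .ins f k => (1 + (τ k * bump (s / P.len j)) • F.nil f x)ᵀ
  | _ => 1

/-- The inverse of `Piece.twist`. -/
def Piece.untwist (P : Piece) (j : ℕ) (τ : ℕ → ℝ) (s : ℝ) (x : Sph) : M6 :=
  match P with
  | .exc J g _ =>
      gram (rotW J (rawExc 0)) * (F.iso J g x)ᵀ * (gram (rotW J (rawExc 0)))⁻¹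
  | .ins f k => (1 - (τ k * bump (s / P.len j)) • F.nil f x)ᵀ
  | _ => 1

theorem det_junction (J : Fin 3) : (gram (rotW J (rawExc 0))).det = 1 := by
  rw [det_gram, wdet_rotW]
  simp [wdet, rawExc]

theorem Piece.untwist_mul (P : Piece) (j : ℕ) (τ : ℕ → ℝ) (s : ℝ) (x : Sph) :
    P.untwist F j τ s x * P.twist F j τ s x = 1 := by
  cases P with
  | exc J g k =>
      refine mul_eq_one_comm.1 ?_
      show F.iso J g x * (_ * _ * _) = 1
      rw [← Matrix.mul_assoc, ← Matrix.mul_assoc, F.iso_fix,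
        mul_nonsing_inv _ (by rw [det_junction]; exact isUnit_one)]
  | ins f k =>
      simp only [untwist, twist, ← transpose_mul]
      simp [add_mul, mul_sub, F.nil_sq]
  | wait J q => simp [untwist, twist]
  | out J => simp [untwist, twist]
  | back J => simp [untwist, twist]

theorem Piece.det_twist_sq (P : Piece) (j : ℕ) (τ : ℕ → ℝ) (s : ℝ) (x : Sph) :
    (P.twist F j τ s x).det * (P.twist F j τ s x).det = 1 := by
  cases P with
  | exc J g k =>
      have h := congrArg Matrix.det (F.iso_fix J g x)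
      simp only [det_mul, det_transpose, det_junction, mul_one] at h
      exact h
  | ins f k =>
      simp only [twist, det_transpose]
      rw [det_one_add_of_sq_zero (by simp [F.nil_sq])]
      norm_num
  | wait J q => simp [twist]
  | out J => simp [twist]
  | back J => simp [twist]

theorem Piece.pmat_eq (P : Piece) (j : ℕ) (τ : ℕ → ℝ) (s : ℝ) (x : Sph) :
    P.pmat F j τ s x
      = P.twist F j τ s x * gram (wNorm 1 (P.raw j τ s)) * (P.twist F j τ s x)ᵀ := by
  cases P <;> simp [pmat, twist]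

theorem Piece.det_pmat (P : Piece) (j : ℕ) (τ : ℕ → ℝ) (h : P.Small j τ) (s : ℝ) (x : Sph) :
    (P.pmat F j τ s x).det = 1 := by
  rw [P.pmat_eq F, det_mul, det_mul, det_transpose, det_gram,
    wdet_wNorm_one (P.raw_ok j τ h s).det]
  simpa using P.det_twist_sq F j τ s x

variable {F} (hF : ModelSmooth F)
include hF

theorem Piece.smooth_twist (P : Piece) (j : ℕ) (τ : ℕ → ℝ) (a : ℝ) (I : Set ℝ)
    (p q : Fin 2 × Fin 3) :
    ContDiffOn ℝ ∞ (fun z : ℝ × Sph => P.twist F j τ (z.1 - a) z.2 p q) (I ×ˢ punct) ∧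
      ContDiffOn ℝ ∞ (fun z : ℝ × Sph => P.untwist F j τ (z.1 - a) z.2 p q) (I ×ˢ punct) := by
  have snd : MapsTo (Prod.snd : ℝ × Sph → Sph) (I ×ˢ punct) punct := fun z hz => hz.2
  cases P with
  | exc J g k =>
      refine ⟨(hF.iso_smooth J g p q).comp contDiffOn_snd snd, ?_⟩
      simp only [untwist, mul_apply, transpose_apply, Finset.sum_mul]
      exact ContDiffOn.sum fun r _ => ContDiffOn.sum fun l _ =>
        (contDiffOn_const.mul ((hF.iso_smooth J g _ _).comp contDiffOn_snd snd)).mul contDiffOn_const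
  | ins f k =>
      have hb : ContDiffOn ℝ ∞ (fun z : ℝ × Sph =>
          τ k * bump ((z.1 - a) / (Piece.ins f k).len j)) (I ×ˢ punct) :=
        contDiffOn_const.mul (contDiff_bump.comp_contDiffOn
          ((contDiffOn_fst.sub contDiffOn_const).div_const _))
      simp only [twist, untwist, transpose_apply, Matrix.add_apply, Matrix.sub_apply,
        Matrix.smul_apply, smul_eq_mul]
      exact ⟨contDiffOn_const.add (hb.mul ((hF.nil_smooth f q p).comp contDiffOn_snd snd)),
        contDiffOn_const.sub (hb.mul ((hF.nil_smooth f q p).comp contDiffOn_snd snd))⟩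
  | wait J q => exact ⟨contDiffOn_const, contDiffOn_const⟩
  | out J => exact ⟨contDiffOn_const, contDiffOn_const⟩
  | back J => exact ⟨contDiffOn_const, contDiffOn_const⟩

omit hF

/-- Square root of a piece scaled by `c² = 1/√d`. -/
def Piece.rootM (F : ModelFields Sph) (P : Piece) (j : ℕ) (τ : ℕ → ℝ) (a : ℝ) (c : ℝ → ℝ)
    (z : ℝ × Sph) : M6 :=
  c z.1 • (P.twist F j τ (z.1 - a) z.2 * cholM (wNorm 1 (P.raw j τ (z.1 - a))))

/-- Its inverse. -/
def Piece.rootN (F : ModelFields Sph) (P : Piece) (j : ℕ) (τ : ℕ → ℝ) (a : ℝ) (c : ℝ → ℝ)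
    (z : ℝ × Sph) : M6 :=
  (c z.1)⁻¹ • (cholN (wNorm 1 (P.raw j τ (z.1 - a))) * P.untwist F j τ (z.1 - a) z.2)

include hF

/-- A piece scaled by a smooth positive function has a smooth square root. -/
theorem Piece.root (P : Piece) (j : ℕ) (τ : ℕ → ℝ) (h : P.Small j τ) (a : ℝ) {I : Set ℝ}
    (hI : IsOpen I) {c : ℝ → ℝ} (hc : ContDiffOn ℝ ∞ c I) (hc0 : ∀ t ∈ I, c t ≠ 0)
    {Q : ℝ → Sph → M6} (hQ : ∀ t ∈ I, ∀ x, Q t x = (c t * c t) • P.pmat F j τ (t - a) x) :
    Root Q I (P.rootM F j τ a c) (P.rootN F j τ a c) := by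
  have hw : ∀ z : ℝ × Sph, WPos (wNorm 1 (P.raw j τ (z.1 - a))) := fun z =>
    wpos_norm (P.raw_ok j τ h _)
  have hcp : ContDiffOn ℝ ∞ (fun z : ℝ × Sph => c z.1) (I ×ˢ punct) :=
    hc.comp contDiffOn_fst fun z hz => hz.1
  have hnorm : ∀ i, ContDiffOn ℝ ∞ (fun z : ℝ × Sph => wNorm 1 (P.raw j τ (z.1 - a)) i)
      (I ×ˢ punct) := by
    intro i
    have hr : ∀ i, ContDiff ℝ ∞ fun z : ℝ × Sph => P.raw j τ (z.1 - a) i := fun i =>
      (contDiff_raw P j τ i).comp (contDiff_fst.sub contDiff_const)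
    simp only [wNorm, one_mul, wdet]
    refine ((hr i).contDiffOn).mul (ContDiffOn.sqrt (contDiffOn_const.div ?_ fun z _ => ?_)
      fun z _ => ?_)
    · exact ((((hr 0).mul (hr 1)).add ((hr 0).mul (hr 2))).add ((hr 1).mul (hr 2))).contDiffOn
    · exact (P.raw_ok j τ h (z.1 - a)).det.ne'
    · exact (one_div_pos.2 (P.raw_ok j τ h (z.1 - a)).det).ne'
  refine ⟨hI, fun p q => ?_, fun p q => ?_, fun z hz => ?_, fun z hz => ?_⟩
  · refine hcp.mul (contDiffOn_mul_matrix (fun p q => (P.smooth_twist hF j τ a I p q).1)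
      (fun p q => (contDiffOn_chol hnorm (fun z _ => hw z) p q).1) p q)
  · refine (hcp.inv fun z hz => hc0 _ hz.1).mul (contDiffOn_mul_matrix
      (fun p q => (contDiffOn_chol hnorm (fun z _ => hw z) p q).2)
      (fun p q => (P.smooth_twist hF j τ a I p q).2) p q)
  · simp only [Piece.rootN, Piece.rootM, Matrix.smul_mul, Matrix.mul_smul, smul_smul]
    rw [mul_inv_cancel₀ (hc0 _ hz.1), one_smul,
      Matrix.mul_assoc, ← Matrix.mul_assoc (P.untwist F j τ (z.1 - a) z.2), P.untwist_mul,
      Matrix.one_mul, cholN_mul (hw z)]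
  · simp only [Piece.rootM, transpose_smul, transpose_mul, Matrix.smul_mul, Matrix.mul_smul,
      smul_smul]
    rw [hQ _ hz.1, P.pmat_eq F, ← cholM_sq (hw z)]
    simp only [Matrix.mul_assoc]

omit hF

namespace Sched

variable (S : Sched) (τ : Params)

/-- All amplitudes are small. -/
def Small : Prop := ∀ i m, (h : m < (S.prog (S.j0 + i)).length) →
  ((S.prog (S.j0 + i))[m]).Small (S.j0 + i) (τ i)

theorem pEnd_window (hne : ∀ j, S.prog j ≠ []) (hc : S.Chained) {i m : ℕ}
    (hm : m < (S.prog (S.j0 + i)).length) {κ t : ℝ} (h1 : S.pieceStart i m - 1 / 4 ≤ t)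
    (h2 : t ≤ S.pieceStart i (m + 1) + 1 / 4) (x : Sph) :
    S.pEnd F τ κ t x = Real.sqrt (1 / dFun κ t) •
      ((S.prog (S.j0 + i))[m]).pmat F (S.j0 + i) (τ i) (t - S.pieceStart i m) x := by
  rw [pEnd, S.pUnit_window F τ hne hc hm h1 h2 x]

/-- `(1/d)^{1/4}`. -/
def scale (κ t : ℝ) : ℝ := Real.sqrt (Real.sqrt (1 / dFun κ t))

theorem scale_pos (κ t : ℝ) : 0 < scale κ t :=
  Real.sqrt_pos.2 (Real.sqrt_pos.2 (one_div_pos.2 (mul_pos (by norm_num [dMin]) (Real.exp_pos _))))

theorem scale_sq (κ t : ℝ) : scale κ t * scale κ t = Real.sqrt (1 / dFun κ t) :=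
  Real.mul_self_sqrt (Real.sqrt_nonneg _)

theorem contDiffOn_dFun (κ : ℝ) : ContDiffOn ℝ ∞ (dFun κ) (Ioi 0) :=
  contDiffOn_const.mul ((contDiffOn_const.mul
    (contDiffOn_id.rpow_const_of_ne fun t ht => ne_of_gt ht)).exp)

theorem contDiffOn_scale (κ : ℝ) : ContDiffOn ℝ ∞ (scale κ) (Ioi 0) := by
  have hd : ∀ t, 0 < dFun κ t := fun t => mul_pos (by norm_num [dMin]) (Real.exp_pos _)
  exact ((contDiffOn_const.div (contDiffOn_dFun κ) fun _t _ => (hd _).ne').sqrt
    fun t _ => (one_div_pos.2 (hd t)).ne').sqrt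
      fun t _ => (Real.sqrt_pos.2 (one_div_pos.2 (hd t))).ne'

include hF in
/-- Square root of the end metric on the widened window of a piece. -/
theorem root_window (hne : ∀ j, S.prog j ≠ []) (hc : S.Chained) (hs : S.Small τ) (κ : ℝ) {i m : ℕ}
    (hm : m < (S.prog (S.j0 + i)).length) :
    Root (S.pEnd F τ κ) (Ioo (S.pieceStart i m - 1 / 4) (S.pieceStart i (m + 1) + 1 / 4))
      (((S.prog (S.j0 + i))[m]).rootM F (S.j0 + i) (τ i) (S.pieceStart i m) (scale κ))
      (((S.prog (S.j0 + i))[m]).rootN F (S.j0 + i) (τ i) (S.pieceStart i m) (scale κ)) := by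
  refine Piece.root hF _ _ _ (hs i m hm) _ isOpen_Ioo ((contDiffOn_scale κ).mono ?_)
    (fun t _ => (scale_pos κ t).ne') fun t ht x => ?_
  · intro t ht
    have h0 : S.t0 ≤ S.pieceStart i m := by
      calc S.t0 ≤ S.start i := S.t0_le_start i
        _ = S.pieceStart i 0 := (S.pieceStart_zero i).symm
        _ ≤ S.pieceStart i m := S.pieceStart_mono i (Nat.zero_le m)
    have := S.one_le_t0
    show 0 < t
    linarith [ht.1]
  · rw [scale_sq, S.pEnd_window τ hne hc hm ht.1.le ht.2.le]

theorem det_pEnd_window (hne : ∀ j, S.prog j ≠ []) (hc : S.Chained) (hs : S.Small τ) (κ : ℝ)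
    {i m : ℕ} (hm : m < (S.prog (S.j0 + i)).length) {t : ℝ}
    (h1 : S.pieceStart i m - 1 / 4 ≤ t) (h2 : t ≤ S.pieceStart i (m + 1) + 1 / 4) (x : Sph) :
    (S.pEnd F τ κ t x).det = (1 / dFun κ t) ^ 3 := by
  rw [S.pEnd_window τ hne hc hm h1 h2, det_smul, Piece.det_pmat F _ _ _ (hs i m hm),
    Fintype.card_prod, Fintype.card_fin, Fintype.card_fin, mul_one]
  rw [show 2 * 3 = 2 * 3 from rfl, pow_mul, Real.sq_sqrt]
  exact (one_div_pos.2 (mul_pos (by norm_num [dMin]) (Real.exp_pos _))).le

end Sched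

/-- The drift of `D = d⁻³`: `5 - D'/(2D) = 5 + vFun`. -/
theorem hasDerivAt_detFun (κ : ℝ) {t : ℝ} (ht : 0 < t) :
    ∃ D', HasDerivAt (fun s => (1 / dFun κ s) ^ 3) D' t ∧
      5 - D' / (2 * (1 / dFun κ t) ^ 3) = 5 + vFun κ t := by
  have hd : ∀ s, 0 < dFun κ s := fun s => mul_pos (by norm_num [dMin]) (Real.exp_pos _)
  have hdd : DifferentiableAt ℝ (dFun κ) t :=
    (((Sched.contDiffOn_dFun κ).differentiableOn (by simp)).differentiableAt (Ioi_mem_nhds ht))
  have hlog : deriv (dFun κ) t / dFun κ t * (3 / 2) = vFun κ t := by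
    have h1 := (hdd.hasDerivAt.log (hd t).ne').const_mul (3 / 2 : ℝ)
    rw [← (hasDerivAt_log_dFun κ ht).deriv, h1.deriv]
    ring
  refine ⟨_, (((hasDerivAt_const t (1 : ℝ)).div hdd.hasDerivAt (hd t).ne').pow 3), ?_⟩
  rw [← hlog]
  have := (hd t).ne'
  simp only [Pi.div_apply]
  field_simp
  ring_nf
  field_simp

end

end Vale.Agent.P225
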