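import Vale.Agent.P225.Metric.Budget
import Vale.Agent.P225.Geom.EndRicci

/-!
P225 (helper29): the weights of a piece scaled to `det Q = dFun`: they stay on the path, their speeds are
`O(κ/t + 1/len)` and their radial curvature is at least `-v' - v - v²/3 - O(1/len²)`.
-/

namespace Vale.Agent.P225

open scoped BigOperators ContDiff Topology
open Set Filter

noncomputable section

/-- Amplitudes of excursions small enough for the path. -/
def Piece.PathSmall (P : Piece) (j : ℕ) (τ : ℕ → ℝ) : Prop :=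
  match P with
  | .exc _ _ k => |τ k| ≤ P.len j / 20
  | _ => True

theorem Piece.PathSmall.small {P : Piece} {j : ℕ} {τ : ℕ → ℝ} (h : P.PathSmall j τ) :
    P.Small j τ := by
  cases P with
  | exc J g k =>
      have h' : |τ k| ≤ (Piece.exc J g k).len j / 20 := h
      have := (Piece.exc J g k).len_pos j
      show |τ k| ≤ _
      linarith
  | _ => exact trivial

/-- The raw weights of a piece are rotated excursions. -/
theorem Piece.raw_path (P : Piece) (j : ℕ) (τ : ℕ → ℝ) (h : P.PathSmall j τ) (s : ℝ) :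
    ∃ n : Fin 3, ∃ x ∈ Icc (-(1 / 20) : ℝ) 1, P.raw j τ s = rotW n (rawExc x) := by
  have z0 : (0 : ℝ) ∈ Icc (-(1 / 20) : ℝ) 1 := ⟨by norm_num, by norm_num⟩
  have hrr : ∀ (a b : Fin 3) (w : Fin 3 → ℝ), rotW a (rotW b w) = rotW (a + b) w := fun a b w =>
    funext fun i => by simp [rotW, sub_add_eq_sub_sub]
  have r0 : rawExc 0 = rotW 0 (rawExc 0) := by funext i; simp [rotW]
  have htr : ∀ y : ℝ, ∃ n : Fin 3, ∃ x ∈ Icc (-(1 / 20) : ℝ) 1, rawTransit y = rotW n (rawExc x) := by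
    intro y
    rcases le_or_gt y (1 / 2) with hy | hy
    · refine ⟨0, Real.smoothTransition (4 * y - 1),
        ⟨by linarith [Real.smoothTransition.nonneg (4 * y - 1)], Real.smoothTransition.le_one _⟩, ?_⟩
      have e := Real.smoothTransition.zero_of_nonpos (by linarith : 4 * y - 2 ≤ 0)
      funext i
      fin_cases i <;> simp [rawTransit, rawExc, rotW, e]
    · refine ⟨1, 1 - Real.smoothTransition (4 * y - 2),
        ⟨by linarith [Real.smoothTransition.le_one (4 * y - 2)],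
          by linarith [Real.smoothTransition.nonneg (4 * y - 2)]⟩, ?_⟩
      have e := Real.smoothTransition.one_of_one_le (by linarith : 1 ≤ 4 * y - 1)
      funext i
      fin_cases i <;> simp [rawTransit, rawExc, rotW, e]
  have hrot : ∀ (a : Fin 3) {w : Fin 3 → ℝ},
      (∃ n : Fin 3, ∃ x ∈ Icc (-(1 / 20) : ℝ) 1, w = rotW n (rawExc x)) →
      ∃ n : Fin 3, ∃ x ∈ Icc (-(1 / 20) : ℝ) 1, rotW a w = rotW n (rawExc x) := by
    rintro a w ⟨n, x, hx, rfl⟩
    exact ⟨a + n, x, hx, hrr _ _ _⟩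
  cases P with
  | wait J q => exact ⟨J, 0, z0, rfl⟩
  | ins f k => exact ⟨0, 0, z0, r0⟩
  | exc J g k =>
      have hl := (Piece.exc J g k).len_pos j
      have h' : |τ k| ≤ (Piece.exc J g k).len j / 20 := h
      have hb := bump_mem (s / (Piece.exc J g k).len j)
      have h1 : |τ k / (Piece.exc J g k).len j * bump (s / (Piece.exc J g k).len j)| ≤ 1 / 20 := by
        rw [abs_mul, abs_of_nonneg hb.1, abs_div, abs_of_pos hl]
        refine (mul_le_of_le_one_right (by positivity) hb.2).trans ?_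
        rw [div_le_iff₀ hl]; linarith
      exact ⟨J, _, ⟨(abs_le.1 h1).1, by linarith [(abs_le.1 h1).2]⟩, rfl⟩
  | out J =>
      simp only [raw]
      split_ifs
      · exact ⟨0, 0, z0, r0⟩
      · exact htr _
      · exact hrot _ (htr _)
  | back J =>
      simp only [raw]
      split_ifs
      · exact ⟨0, 0, z0, r0⟩
      · exact htr _
      · exact hrot _ (htr _)

/-- `sqrt (1/dFun)`. -/
def sigFun (κ t : ℝ) : ℝ := Real.sqrt (1 / dFun κ t)

theorem endDFun_pos (κ t : ℝ) : 0 < dFun κ t := mul_pos (by norm_num [dMin]) (Real.exp_pos _)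

theorem wNorm_dFun (κ t : ℝ) (w : Fin 3 → ℝ) :
    wNorm (dFun κ t) w = sigFun κ t • wNorm 1 w := by
  funext i
  simp only [wNorm, sigFun, Pi.smul_apply, smul_eq_mul, one_mul, ← div_div]
  rw [div_eq_mul_one_div (1 / dFun κ t), Real.sqrt_mul (one_div_pos.2 (endDFun_pos κ t)).le]
  ring

theorem hasDerivAt_sigFun (κ : ℝ) {t : ℝ} (ht : 0 < t) :
    HasDerivAt (sigFun κ) (-(sigFun κ t * vFun κ t) / 3) t := by
  have e : sigFun κ = fun s => Real.exp (-(1 / 3) * (3 / 2 * Real.log (dFun κ s))) := by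
    funext s
    have hd := endDFun_pos κ s
    rw [sigFun, Real.sqrt_eq_rpow, Real.rpow_def_of_pos (one_div_pos.2 hd), one_div (dFun κ s),
      Real.log_inv]
    ring_nf
  rw [e]
  refine (((hasDerivAt_log_dFun κ ht).const_mul (-(1 / 3) : ℝ)).exp).congr_deriv ?_
  ring

/-- The weights of a piece on the end. -/
def endW (κ : ℝ) (P : Piece) (j : ℕ) (τ : ℕ → ℝ) (a t : ℝ) : Fin 3 → ℝ :=
  wNorm (dFun κ t) (P.raw j τ (t - a))

theorem contDiff_wNorm_raw (P : Piece) (j : ℕ) (τ : ℕ → ℝ) (h : P.Small j τ) (a : ℝ) :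
    ContDiff ℝ 2 fun t => wNorm 1 (P.raw j τ (t - a)) := by
  refine contDiff_pi.2 fun i => ?_
  have hr : ∀ i, ContDiff ℝ 2 fun t => P.raw j τ (t - a) i := fun i =>
    ((contDiff_raw P j τ i).of_le (by exact WithTop.coe_le_coe.2 le_top)).comp
      (contDiff_id.sub contDiff_const)
  simp only [wNorm, one_mul]
  refine (hr i).mul (ContDiff.sqrt (contDiff_const.div ?_ fun t => (P.raw_ok j τ h _).det.ne')
    fun t => (one_div_pos.2 (P.raw_ok j τ h _).det).ne')
  exact (((hr 0).mul (hr 1)).add ((hr 0).mul (hr 2))).add ((hr 1).mul (hr 2))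

theorem contDiffAt_endW (κ : ℝ) (P : Piece) (j : ℕ) (τ : ℕ → ℝ) (h : P.Small j τ) (a : ℝ) {t : ℝ}
    (ht : 0 < t) : ContDiffAt ℝ 2 (endW κ P j τ a) t := by
  have e : endW κ P j τ a = fun t => sigFun κ t • wNorm 1 (P.raw j τ (t - a)) :=
    funext fun t => wNorm_dFun κ t _
  have hs : ContDiffAt ℝ 2 (sigFun κ) t := by
    refine ContDiffAt.sqrt ?_ (one_div_pos.2 (endDFun_pos κ t)).ne'
    exact contDiffAt_const.div (((Sched.contDiffOn_dFun κ).contDiffAt (Ioi_mem_nhds ht)).of_le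
      (by exact WithTop.coe_le_coe.2 le_top)) (endDFun_pos κ t).ne'
  rw [e]
  exact hs.smul (contDiff_wNorm_raw P j τ h a).contDiffAt

/-- A bound for all weights of the path. -/
theorem exists_path_norm : ∃ R : ℝ, 1 ≤ R ∧ ∀ w ∈ pathSet, ‖w‖ ≤ R := by
  obtain ⟨R, hR⟩ := isCompact_pathSet.exists_bound_of_continuousOn continuous_id.continuousOn
  exact ⟨max R 1, le_max_right _ _, fun w hw => (hR w hw).trans (le_max_left _ _)⟩

theorem wdet_smul_add (u b : ℝ) (X Y : Fin 3 → ℝ) :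
    wdet (u • X + b • Y) = u ^ 2 * wdet X + b ^ 2 * wdet Y
      + u * b * (X 0 * Y 1 + X 1 * Y 0 + X 0 * Y 2 + X 2 * Y 0 + X 1 * Y 2 + X 2 * Y 1) := by
  simp only [wdet, Pi.add_apply, Pi.smul_apply, smul_eq_mul]; ring

theorem wdet_speed_lower {u σ R e : ℝ} {X Y : Fin 3 → ℝ} (hσ : 0 ≤ σ) (hX : wdet X = 1)
    (hXR : ‖X‖ ≤ R) (hY : ‖Y‖ ≤ e) :
    -(σ ^ 2 * (3 + 9 * R ^ 2) * e ^ 2) ≤ wdet (u • X + σ • Y) := by
  have x : ∀ i, |X i| ≤ R := fun i => (norm_le_pi_norm X i).trans hXR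
  have y : ∀ i, |Y i| ≤ e := fun i => (norm_le_pi_norm Y i).trans hY
  have hR : 0 ≤ R := (abs_nonneg _).trans (x 0)
  have hy : ∀ i k, -(e * e) ≤ Y i * Y k := fun i k => by
    refine (neg_le_neg ?_).trans (neg_abs_le _)
    rw [abs_mul]; exact mul_le_mul (y i) (y k) (abs_nonneg _) ((abs_nonneg _).trans (y 0))
  have hxy : ∀ i k, -(|u| * σ * (R * e)) ≤ u * σ * (X i * Y k) := fun i k => by
    refine (neg_le_neg ?_).trans (neg_abs_le _)
    rw [abs_mul, abs_mul, abs_mul, abs_of_nonneg hσ]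
    exact mul_le_mul_of_nonneg_left (mul_le_mul (x i) (y k) (abs_nonneg _) hR)
      (mul_nonneg (abs_nonneg u) hσ)
  rw [wdet_smul_add, hX]
  have hY2 : -(3 * (e * e)) ≤ wdet Y := by
    simp only [wdet]; linarith [hy 0 1, hy 0 2, hy 1 2]
  have hY3 := mul_le_mul_of_nonneg_left hY2 (sq_nonneg σ)
  nlinarith [hxy 0 1, hxy 1 0, hxy 0 2, hxy 2 0, hxy 1 2, hxy 2 1, hY3, sq_abs u,
    sq_nonneg (|u| - 3 * (σ * (R * e)))]

theorem vFun_bounds {κ t : ℝ} (hκ : 0 ≤ κ) (ht : 1 ≤ t) :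
    |vFun κ t| ≤ κ / t ∧ |vFun' κ t| ≤ κ / t := by
  have h0 : 0 < t := by linarith
  have b : ∀ p : ℝ, p ≤ -1 → t ^ p ≤ t⁻¹ := fun p hp => by
    rw [← Real.rpow_neg_one]; exact Real.rpow_le_rpow_of_exponent_le ht hp
  have h1 := mul_le_mul_of_nonneg_left (b (-(9 / 8)) (by norm_num)) hκ
  have h2 := mul_le_mul_of_nonneg_left (b (-(17 / 8)) (by norm_num)) hκ
  have p1 := mul_nonneg hκ (Real.rpow_nonneg h0.le (-(9 / 8) : ℝ))
  have p2 := mul_nonneg hκ (Real.rpow_nonneg h0.le (-(17 / 8) : ℝ))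
  rw [div_eq_mul_inv κ t]
  exact ⟨abs_le.2 ⟨by simp only [vFun]; linarith, by simp only [vFun]; linarith⟩,
    abs_le.2 ⟨by simp only [vFun']; linarith, by simp only [vFun']; linarith⟩⟩

/-- The derivatives of the weights on the end. -/
theorem endW_derivs (κ : ℝ) (P : Piece) (j : ℕ) (τ : ℕ → ℝ) (h : P.Small j τ) (a : ℝ) {t : ℝ}
    (ht : 0 < t) :
    let U := fun s => wNorm 1 (P.raw j τ (s - a))
    let u := -(sigFun κ t * vFun κ t) / 3
    deriv (endW κ P j τ a) t = u • U t + sigFun κ t • deriv U t ∧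
      deriv (deriv (endW κ P j τ a)) t
        = (u • deriv U t + (-(u * vFun κ t + sigFun κ t * vFun' κ t) / 3) • U t)
          + (sigFun κ t • deriv (deriv U) t + u • deriv U t) := by
  intro U u
  have hUs : ContDiff ℝ 2 U := contDiff_wNorm_raw P j τ h a
  have hUd : Differentiable ℝ U := hUs.differentiable (by norm_num)
  have hU1 : ContDiff ℝ 1 (deriv U) :=
    ((contDiff_succ_iff_deriv (n := 1)).1 (by exact_mod_cast hUs)).2.2
  have hWd : ∀ s, 0 < s → HasDerivAt (endW κ P j τ a)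
      ((-(sigFun κ s * vFun κ s) / 3) • U s + sigFun κ s • deriv U s) s := fun s hs => by
    have h := (hasDerivAt_sigFun κ hs).smul (hUd s).hasDerivAt
    rw [add_comm]
    exact h.congr_of_eventuallyEq (Eventually.of_forall fun r => wNorm_dFun κ r _)
  refine ⟨(hWd t ht).deriv, ?_⟩
  have hnear : deriv (endW κ P j τ a) =ᶠ[𝓝 t] fun s =>
      (-(sigFun κ s * vFun κ s) / 3) • U s + sigFun κ s • deriv U s := by
    filter_upwards [Ioi_mem_nhds ht] with s hs using (hWd s hs).deriv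
  rw [hnear.deriv_eq]
  exact (((((hasDerivAt_sigFun κ ht).mul (hasDerivAt_vFun_budget κ ht)).neg.div_const 3).smul
    (hUd t).hasDerivAt).add ((hasDerivAt_sigFun κ ht).smul
      (hU1.differentiable one_ne_zero t).hasDerivAt)).deriv

/-- The weights on the end: on the path, slow, with radial curvature bounded below. -/
theorem exists_endW_bounds : ∃ R : ℝ, 0 ≤ R ∧ ∀ (κ : ℝ) (P : Piece) (j : ℕ) (τ : ℕ → ℝ) (a t : ℝ),
    0 ≤ κ → 1 ≤ t → κ ≤ t → P.PathSmall j τ → dFun κ t ≤ dMax →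
    endW κ P j τ a t ∈ pathSet ∧
      ‖deriv (endW κ P j τ a) t‖ ≤ R * (κ / t + 1 / P.len j) ∧
      ‖deriv (deriv (endW κ P j τ a)) t‖ ≤ R * (κ / t + 1 / P.len j) ∧
      -vFun' κ t - vFun κ t - vFun κ t ^ 2 / 3 - R / P.len j ^ 2 ≤ radOf (endW κ P j τ a) t := by
  obtain ⟨R, hR1, hR⟩ := exists_path_norm
  obtain ⟨C, hC0, hC⟩ := exists_speed_bound
  refine ⟨max (max (R + 3 * C) (R + 5 * C)) (2 * (3 + 9 * R ^ 2) * C ^ 2), ?_, ?_⟩
  · exact le_trans (by positivity) (le_max_right _ _)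
  intro κ P j τ a t hκ h1 hκt hP hd
  set L := P.len j
  have hL : 0 < L := P.len_pos j
  have hL1 : 1 ≤ L := P.one_le_len j
  set W := endW κ P j τ a
  set U := fun s => wNorm 1 (P.raw j τ (s - a)) with hU
  have hW : ∀ s, W s = sigFun κ s • U s := fun s => wNorm_dFun κ s _
  have hUs : ContDiff ℝ 2 U := contDiff_wNorm_raw P j τ hP.small a
  have hUd : Differentiable ℝ U := hUs.differentiable (by norm_num)
  have hU1 : ContDiff ℝ 1 (deriv U) :=
    ((contDiff_succ_iff_deriv (n := 1)).1 (by exact_mod_cast hUs)).2.2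
  have hpd : ∀ s, ∀ i, deriv U s i = deriv (fun s => U s i) s := fun s i => by
    rw [deriv_pi fun i => differentiableAt_pi.1 (hUd s) i]
  have hU' : ∀ s, ‖deriv U s‖ ≤ C / L := fun s =>
    (pi_norm_le_iff_of_nonneg (by positivity)).2 fun i => by
      rw [hpd, Real.norm_eq_abs]; exact (hC P j τ hP.small a s i).1
  have hU'' : ‖deriv (deriv U) t‖ ≤ C / L ^ 2 :=
    (pi_norm_le_iff_of_nonneg (by positivity)).2 fun i => by
      rw [deriv_pi fun i => differentiableAt_pi.1 (hU1.differentiable one_ne_zero t) i,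
        Real.norm_eq_abs]
      simp only [hpd]
      exact (hC P j τ hP.small a t i).2
  -- on the path
  obtain ⟨n, x, hx, hraw⟩ := P.raw_path j τ hP (t - a)
  have ht0 : 0 < t := by linarith
  have hmem : W t ∈ pathSet := ⟨n, dFun κ t, ⟨dMin_le_dFun hκ ht0.le, hd⟩, x, hx,
    by simp only [W, endW, hraw]⟩
  have hd0 := endDFun_pos κ t
  have hσ1 : 1 ≤ sigFun κ t := Real.one_le_sqrt.2 (by
    rw [le_div_iff₀ hd0]; norm_num [dMax] at hd ⊢; linarith)
  have hσ3 : sigFun κ t ≤ 3 := by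
    rw [sigFun, Real.sqrt_le_left (by norm_num), div_le_iff₀ hd0]
    have := dMin_le_dFun hκ ht0.le
    norm_num [dMin] at this ⊢
    linarith
  have hUR : ‖U t‖ ≤ R := by
    refine le_trans ?_ (hR _ hmem)
    rw [hW, norm_smul, Real.norm_eq_abs, abs_of_pos (by linarith)]
    exact le_mul_of_one_le_left (norm_nonneg _) hσ1
  have hσR : sigFun κ t * ‖U t‖ ≤ R := by
    have := hR _ hmem
    rwa [hW, norm_smul, Real.norm_eq_abs, abs_of_pos (by linarith)] at this
  -- derivatives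
  obtain ⟨e1, e2⟩ := endW_derivs κ P j τ hP.small a ht0
  set u := -(sigFun κ t * vFun κ t) / 3 with hu
  set u' := -(u * vFun κ t + sigFun κ t * vFun' κ t) / 3 with hu'
  obtain ⟨bv, bv'⟩ := vFun_bounds hκ h1
  have hkt : κ / t ≤ 1 := (div_le_one ht0).2 hκt
  have hk0 : 0 ≤ κ / t := div_nonneg hκ ht0.le
  have bu : |u| * ‖U t‖ ≤ R * (κ / t) / 3 ∧ |u| ≤ κ / t := by
    have e : |u| = sigFun κ t * |vFun κ t| / 3 := by
      rw [hu, abs_div, abs_neg, abs_mul, abs_of_pos (by linarith : 0 < sigFun κ t)]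
      norm_num
    rw [e]
    constructor
    · calc sigFun κ t * |vFun κ t| / 3 * ‖U t‖ = sigFun κ t * ‖U t‖ * |vFun κ t| / 3 := by ring
        _ ≤ R * (κ / t) / 3 := by
          have := mul_le_mul hσR bv (abs_nonneg _) (by linarith : (0:ℝ) ≤ R)
          linarith
    · have := mul_le_mul hσ3 bv (abs_nonneg _) (by norm_num)
      linarith
  have bu' : |u'| * ‖U t‖ ≤ R * (κ / t) := by
    have h : |u'| ≤ (|u| * |vFun κ t| + sigFun κ t * |vFun' κ t|) / 3 := by
      rw [hu', abs_div, abs_neg, show |(3:ℝ)| = 3 by norm_num]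
      gcongr
      refine (abs_add_le _ _).trans ?_
      rw [abs_mul, abs_mul, abs_of_pos (by linarith : 0 < sigFun κ t)]
    have p1 := mul_le_mul_of_nonneg_right h (norm_nonneg (U t))
    have p2 := mul_le_mul bu.1 (bv.trans hkt) (abs_nonneg _)
      (by linarith [mul_nonneg (abs_nonneg u) (norm_nonneg (U t)), bu.1])
    have p3 := mul_le_mul hσR bv' (abs_nonneg _) (by linarith : (0:ℝ) ≤ R)
    nlinarith [mul_nonneg (by linarith : (0:ℝ) ≤ R) hk0]
  have hCL : 0 ≤ C / L := by positivity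
  have hLL : C / L ^ 2 ≤ C / L := by
    gcongr
    nlinarith
  refine ⟨hmem, ?_, ?_, ?_⟩
  · rw [e1]
    refine (norm_add_le _ _).trans ?_
    rw [norm_smul, norm_smul, Real.norm_eq_abs, Real.norm_eq_abs,
      abs_of_pos (by linarith : 0 < sigFun κ t)]
    have h3 := mul_le_mul hσ3 (hU' t) (norm_nonneg _) (by norm_num)
    refine le_trans ?_ (mul_le_mul_of_nonneg_right ((le_max_left (R + 3 * C) (R + 5 * C)).trans
      (le_max_left _ _)) (by positivity))
    have : (R + 3 * C) * (κ / t + 1 / L)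
        = R * (κ / t) + 3 * (C / L) + (3 * C * (κ / t) + R * (1 / L)) := by ring
    rw [this]
    nlinarith [bu.1, mul_nonneg hC0 hk0, mul_nonneg (by linarith : (0:ℝ) ≤ R) hk0,
      mul_nonneg (by linarith : (0:ℝ) ≤ R) (by positivity : 0 ≤ 1 / L)]
  · rw [e2]
    refine (norm_add_le _ _).trans ((add_le_add (norm_add_le _ _) (norm_add_le _ _)).trans ?_)
    simp only [norm_smul, Real.norm_eq_abs, abs_of_pos (by linarith : 0 < sigFun κ t)]
    have h3 := mul_le_mul hσ3 (hU''.trans hLL) (norm_nonneg _) (by norm_num)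
    have h4 := mul_le_mul (bu.2.trans hkt) (hU' t) (norm_nonneg _) zero_le_one
    refine le_trans ?_ (mul_le_mul_of_nonneg_right ((le_max_right (R + 3 * C) (R + 5 * C)).trans
      (le_max_left _ _)) (by positivity))
    have : (R + 5 * C) * (κ / t + 1 / L)
        = R * (κ / t) + 5 * (C / L) + (5 * C * (κ / t) + R * (1 / L)) := by ring
    rw [this]
    nlinarith [mul_nonneg hC0 hk0, mul_nonneg (by linarith : (0:ℝ) ≤ R) hk0,
      mul_nonneg (by linarith : (0:ℝ) ≤ R) (by positivity : 0 ≤ 1 / L)]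
  -- radial curvature
  · have hwU : ∀ s, wdet (U s) = 1 := fun s => wdet_wNorm_one (P.raw_ok j τ hP.small _).det
    have hwW : ∀ s, wdet (W s) = 1 / dFun κ s := fun s => by
      have h := hwU s
      have hs := Real.mul_self_sqrt (one_div_pos.2 (endDFun_pos κ s)).le
      rw [hW]
      simp only [wdet, Pi.smul_apply, smul_eq_mul, sigFun] at h ⊢
      linear_combination (Real.sqrt (1 / dFun κ s) * Real.sqrt (1 / dFun κ s)) * h + hs
    have hv : ∀ s, 0 < s → vOf W s = vFun κ s := fun s hs => by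
      rw [vOf]
      simp only [hwW, one_div, Real.log_inv]
      rw [deriv.fun_neg, ← (hasDerivAt_log_dFun κ hs).deriv, deriv_const_mul_field]
      ring
    have hv' : deriv (vOf W) t = vFun' κ t := by
      rw [EventuallyEq.deriv_eq (f := vFun κ) (by
        filter_upwards [Ioi_mem_nhds ht0] with s hs using hv s hs),
        (hasDerivAt_vFun_budget κ ht0).deriv]
    have hsp := wdet_speed_lower (u := u) (σ := sigFun κ t) (by linarith) (hwU t) hUR (hU' t)
    have hσsq : sigFun κ t ^ 2 = 1 / dFun κ t := Real.sq_sqrt (one_div_pos.2 hd0).le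
    rw [radOf, hv', hv t ht0, e1, hwW t, ← hσsq]
    have hpos : 0 < sigFun κ t ^ 2 := by positivity
    have hq : -((3 + 9 * R ^ 2) * (C / L) ^ 2) ≤
        wdet (u • U t + sigFun κ t • deriv U t) / sigFun κ t ^ 2 := by
      rw [le_div_iff₀ hpos]; linarith
    have hm : 3 / 2 * ((3 + 9 * R ^ 2) * (C / L) ^ 2)
        ≤ max (max (R + 3 * C) (R + 5 * C)) (2 * (3 + 9 * R ^ 2) * C ^ 2) / L ^ 2 := by
      refine le_trans ?_ (div_le_div_of_nonneg_right (le_max_right _ _) (by positivity))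
      rw [div_pow, ← mul_div_assoc, ← mul_div_assoc]
      exact div_le_div_of_nonneg_right
        (by linarith [mul_nonneg (by positivity : 0 ≤ 3 + 9 * R ^ 2) (sq_nonneg C)]) (by positivity)
    linarith

end

end Vale.Agent.P225
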