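import Vale.Agent.P225.Metric.RicciJet
import Vale.Agent.P225.Metric.RicciWeights
import Vale.Agent.P225.Geom.CapCore

/-!
P225 (helper29): nonnegative Ricci curvature of the end of a schedule with small amplitudes, and with
the cap on the whole chart.
-/

namespace Vale.Agent.P225

open scoped BigOperators ContDiff Topology
open Set Matrix Filter

noncomputable section

/-- The junction isometries keep the brackets of the base fields. -/
structure IsoBrackets (F : ModelFields Sph) : Prop where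
  bracket : ∀ J g, ∀ y ∈ chartOff, ∀ a b f,
    changeStruct baseField (fun p q r _ => baseStruct p q r) (fun z => lift7 (F.iso J g (sph z)))
      (fun z => lift7 (gram (rotW J (rawExc 0)) * (F.iso J g (sph z))ᵀ
        * (gram (rotW J (rawExc 0)))⁻¹)) a b f y = baseStruct a b f

/-- Amplitudes small enough for the curvature budget. -/
def Piece.RicciAmp (P : Piece) (Nf j : ℕ) (τ : ℕ → ℝ) : Prop :=
  match P with
  | .exc _ _ k => |τ k| ≤ P.len j / 20
  | .ins f k => f < Nf ∧ |τ k| ≤ 1 / ((j : ℝ) + 1) ^ 10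
  | _ => True

theorem Piece.RicciAmp.pathSmall {P : Piece} {Nf j : ℕ} {τ : ℕ → ℝ} (h : P.RicciAmp Nf j τ) :
    P.PathSmall j τ := by
  cases P with
  | exc J g k => exact h
  | _ => exact trivial

/-- The jets of the insertions are `O(|ε|)`, uniformly for finitely many tensors. -/
theorem exists_ins_jet {F : ModelFields Sph} (hF : ModelSmooth F) (Nf : ℕ) :
    ∃ C : ℝ, 0 ≤ C ∧ ∀ f < Nf, ∀ ε L a : ℝ, 1 ≤ L → ∀ x ∈ chartOff,
      ‖frameJet baseField
          (fun y => lift7 (1 + ((ε * bump ((tlog y - a) / L)) • F.nil f (sph y))ᵀ))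
          (fun y => lift7 (1 + -((ε * bump ((tlog y - a) / L)) • F.nil f (sph y))ᵀ)) x
        - FrameJet.one‖ ≤ C * |ε| := by
  obtain ⟨Cb, hCb, hb⟩ := exists_profile_bound (Ψ := fun _ x => bump x)
    ((contDiff_bump.comp contDiff_snd).contDiffOn)
    (fun η x hx => by
      rw [bump_zero_of_le hx, bump_zero_of_le (by norm_num : (0 : ℝ) ≤ 1 / 4)])
    (fun η x hx => by
      rw [bump_zero_of_ge hx, bump_zero_of_ge (by norm_num : (3 / 4 : ℝ) ≤ 1)])
  choose Cf hCf0 hCf using fun f => exists_jet_bound (hF.nil_smooth f)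
  have hS : 0 ≤ ∑ f ∈ Finset.range Nf, Cf f := Finset.sum_nonneg fun f _ => hCf0 f
  refine ⟨(∑ f ∈ Finset.range Nf, Cf f) * (Cb + 1), by positivity, fun f hf ε L a hL x hx => ?_⟩
  have hbd := hb 0 ⟨by norm_num, by norm_num⟩ L hL a
  have hdiff : Differentiable ℝ fun t => bump ((t - a) / L) :=
    ((contDiff_bump (n := (1 : ℕ∞))).differentiable one_ne_zero).comp
      ((differentiable_id.sub_const a).div_const L)
  have e1 : deriv (fun t => ε * bump ((t - a) / L))
      = fun t => ε * deriv (fun t => bump ((t - a) / L)) t :=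
    funext fun t => deriv_const_mul ε (hdiff t)
  have hCL : ∀ k : ℕ, Cb / L ^ k ≤ Cb + 1 := fun k =>
    (div_le_self hCb (one_le_pow₀ hL)).trans (by linarith)
  have h := hCf f (fun t => ε * bump ((t - a) / L))
    (contDiff_const.mul ((contDiff_bump (n := (2 : ℕ∞))).comp
      ((contDiff_id.sub contDiff_const).div_const L))) x hx ((Cb + 1) * |ε|) ?_ ?_ ?_
  · refine h.trans ?_
    rw [← mul_assoc]
    gcongr
    exact Finset.single_le_sum (fun f _ => hCf0 f) (Finset.mem_range.2 hf)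
  · rw [abs_mul, mul_comm]
    gcongr
    rw [abs_of_nonneg (bump_mem _).1]
    linarith [(bump_mem ((tlog x - a) / L)).2]
  · rw [e1, abs_mul, mul_comm]
    gcongr
    exact (hbd _).1.trans (by simpa using hCL 1)
  · rw [e1, deriv_const_mul_field, abs_mul, mul_comm]
    gcongr
    exact (hbd _).2.trans (hCL 2)

/-- One piece late on the end has nonnegative Ricci curvature. -/
theorem exists_window_ricci {F : ModelFields Sph} (hF : ModelSmooth F) (hbr : IsoBrackets F)
    (Nf : ℕ) {κ : ℝ} (hκ : 0 < κ) : ∃ T : ℝ, 1 ≤ T ∧ ∀ A : ℝ, 0 < A → ∃ N : ℕ,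
    ∀ (P : Piece) (j : ℕ) (τ : ℕ → ℝ) (a : ℝ) (I : Set ℝ) (Q : ℝ → Sph → M6),
      IsOpen I → N ≤ j → 5 ≤ P.power → P.RicciAmp Nf j τ →
      (∀ t ∈ I, T ≤ t ∧ t ≤ A * ((j : ℝ) + 1) ^ 8 ∧ dFun κ t ≤ dMax) →
      (∀ t ∈ I, ∀ z, Q t z = Real.sqrt (1 / dFun κ t) • P.pmat F j τ (t - a) z) →
      ∀ x ∈ chartOff, tlog x ∈ I → ∀ v : Pt 7,
        0 ≤ ∑ i, ∑ l, ricci (warpMetric Q) i l x * v i * v l := by
  obtain ⟨L, δ, hδ, hL, hcrit⟩ := warp_ricci_nonneg
  obtain ⟨R, hR, hW⟩ := exists_endW_bounds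
  obtain ⟨Ci, hCi, hjet⟩ := exists_ins_jet hF Nf
  refine ⟨max (max 4 κ) (2 * R * κ / δ), le_trans (by norm_num)
    ((le_max_left (4 : ℝ) κ).trans (le_max_left _ _)), fun A hA => ?_⟩
  obtain ⟨N₁, hN₁⟩ := radial_budget (K := R + L * Ci) hA hκ
  obtain ⟨N₂, hN₂⟩ := exists_nat_ge ((2 * R + Ci) / δ)
  refine ⟨max N₁ N₂, fun P j τ a I Q hI hj hpow hamp hI' hQ x hx hxI v => ?_⟩
  set t := tlog x with ht
  obtain ⟨hT, hA', hd⟩ := hI' t hxI
  simp only [max_le_iff] at hT
  have ht0 : 0 < t := by linarith [hT.1.1]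
  have hps := hamp.pathSmall
  obtain ⟨hmem, hw1, hw2, hrad⟩ := hW κ P j τ a t hκ.le (by linarith [hT.1.1]) hT.1.2 hps hd
  -- numbers
  have hj1 : (1 : ℝ) ≤ (j : ℝ) + 1 := le_add_of_nonneg_left (Nat.cast_nonneg _)
  have hlen : ((j : ℝ) + 1) ^ 5 ≤ P.len j := pow_le_pow_right₀ hj1 hpow
  have hlen10 : ((j : ℝ) + 1) ^ 10 ≤ P.len j ^ 2 :=
    calc ((j : ℝ) + 1) ^ 10 = (((j : ℝ) + 1) ^ 5) ^ 2 := by ring
      _ ≤ P.len j ^ 2 := pow_le_pow_left₀ (by positivity) hlen 2
  have hNj : (2 * R + Ci) / δ ≤ (j : ℝ) + 1 :=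
    hN₂.trans ((by exact_mod_cast le_trans (le_max_right _ _) hj : (N₂ : ℝ) ≤ j).trans (by linarith))
  rw [div_le_iff₀ hδ] at hNj
  have hsmall : R * (κ / t + 1 / P.len j) ≤ δ := by
    have h2 := hT.2
    rw [div_le_iff₀ hδ] at h2
    have h3 : R * (κ / t) ≤ δ / 2 := by
      rw [← mul_div_assoc, div_le_iff₀ ht0]; linarith
    have h4 : R * (1 / P.len j) ≤ δ / 2 := by
      rw [← mul_div_assoc, div_le_iff₀ (P.len_pos j), mul_one]
      have : (j : ℝ) + 1 ≤ P.len j := (le_self_pow₀ hj1 (by norm_num : (5 : ℕ) ≠ 0)).trans hlen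
      nlinarith
    linarith
  set ε := Ci / ((j : ℝ) + 1) ^ 10 with hε
  have hε0 : 0 ≤ ε := by positivity
  have hεδ : ε ≤ δ := by
    rw [hε, div_le_iff₀ (by positivity)]
    nlinarith [le_self_pow₀ hj1 (by norm_num : (10 : ℕ) ≠ 0)]
  have hbud : L * ε ≤ radOf (endW κ P j τ a) t := by
    refine le_trans ?_ hrad
    have hb := hN₁ j ((le_max_left _ _).trans hj) t hT.1.1 hT.1.2 hA'
    have h5 : R / P.len j ^ 2 ≤ R / ((j : ℝ) + 1) ^ 10 := by gcongr
    rw [add_div, mul_div_assoc L Ci] at hb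
    rw [hε]
    linarith
  -- the data of the criterion
  set s : Set (Pt 7) := {y | y ∈ chartOff ∧ tlog y ∈ I} with hs
  have hso : IsOpen s :=
    ((contDiffOn_coord (n := 2)).continuousOn.fst).isOpen_inter_preimage isOpen_chartOff hI
  have hsub : s ⊆ chartOff := fun y hy => hy.1
  have hpos : ∀ y ∈ s, 0 < tlog y := fun y hy => by
    have := (hI' _ hy.2).1
    linarith [le_max_left (max 4 κ) (2 * R * κ / δ), le_max_left (4 : ℝ) κ]
  have hWy : ∀ y ∈ s, ContDiffAt ℝ 2 (endW κ P j τ a) (tlog y) ∧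
      endW κ P j τ a (tlog y) ∈ wPos := fun y hy => by
    refine ⟨contDiffAt_endW κ P j τ hps.small a (hpos y hy), ?_⟩
    obtain ⟨n, u, hu, hraw⟩ := P.raw_path j τ hps (tlog y - a)
    exact pathSet_subset ⟨n, dFun κ (tlog y), ⟨dMin_le_dFun hκ.le (hpos y hy).le,
      (hI' _ hy.2).2.2⟩, u, hu, by simp only [endW, hraw]⟩
  have hG : ∀ t', Real.sqrt (1 / dFun κ t') • gram (wNorm 1 (P.raw j τ (t' - a)))
      = gram (endW κ P j τ a t') := fun t' => by
    rw [← gram_smul, endW, wNorm_dFun]; rfl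
  have hQ' : ∀ y ∈ s, Q (tlog y) (sph y)
      = P.twist F j τ (tlog y - a) (sph y) * gram (endW κ P j τ a (tlog y))
        * (P.twist F j τ (tlog y - a) (sph y))ᵀ := fun y hy => by
    rw [hQ _ hy.2, P.pmat_eq F, ← hG]
    simp only [Matrix.smul_mul, Matrix.mul_smul]
  have hsph : ContDiffOn ℝ 2 sph s := ((contDiffOn_coord (n := 2)).snd).mono hsub
  have hmaps : MapsTo sph s punct := fun y hy => sph_punct (hsub hy)
  have hzero : ∀ p q, ContDiffOn ℝ 2 (fun y : Pt 7 => (0 : M6) p q) s := fun p q => contDiffOn_const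
  have hjet0 : ∀ f : Fin 7 → Pt 7 → Pt 7,
      ‖frameJet f (fun _ => lift7 (1 + 0)) (fun _ => lift7 (1 + 0)) x - FrameJet.one‖ ≤ ε := fun f => by
    rw [add_zero, frameJet_lift_one, sub_self, norm_zero]; exact hε0
  have run := fun A B E E' hA hB hE hE' hBA hEE hbr hP hj =>
    hcrit Q s A B E E' (endW κ P j τ a) hso hsub hA hB hE hE' hBA hEE hbr hWy hP x ⟨hx, hxI⟩
      (endW κ P j τ a t) hmem (by rw [sub_self, norm_zero]; exact hδ.le) (hw1.trans hsmall) (hw2.trans hsmall) ε hεδ hj hbud v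
  -- pieces without twist
  have plain : (∀ y ∈ s, P.twist F j τ (tlog y - a) (sph y) = 1) →
      0 ≤ ∑ i, ∑ l, ricci (warpMetric Q) i l x * v i * v l := fun h => by
    refine run (fun _ => 1) (fun _ => 1) (fun _ => 0) (fun _ => 0) (fun p q => contDiffOn_const)
      (fun p q => contDiffOn_const) hzero hzero (fun y _ => Matrix.mul_one _) (fun y _ => by simp)
      (fun y _ a b f => changeStruct_lift_one a b f y) (fun y hy => by rw [hQ' y hy, h y hy]; simp)
      (hjet0 _)
  cases P with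
  | wait J q => exact plain fun y _ => rfl
  | out J => exact plain fun y _ => rfl
  | back J => exact plain fun y _ => rfl
  | exc J g k =>
      refine run (fun y => F.iso J g (sph y))
        (fun y => gram (rotW J (rawExc 0)) * (F.iso J g (sph y))ᵀ * (gram (rotW J (rawExc 0)))⁻¹)
        (fun _ => 0) (fun _ => 0)
        (fun p q => ((hF.iso_smooth J g p q).of_le (by exact WithTop.coe_le_coe.2 le_top)).comp
          hsph hmaps)
        (fun p q => ?_) hzero hzero
        (fun y _ => Piece.untwist_mul F (Piece.exc J g k) j τ 0 (sph y)) (fun y _ => by simp)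
        (fun y hy => hbr.bracket J g y (hsub hy))
        (fun y hy => by rw [hQ' y hy]; simp [Piece.twist]) (hjet0 _)
      simp only [mul_apply, transpose_apply, Finset.sum_mul]
      exact ContDiffOn.sum fun r _ => ContDiffOn.sum fun l _ => (contDiffOn_const.mul
        (((hF.iso_smooth J g _ _).of_le (by exact WithTop.coe_le_coe.2 le_top)).comp hsph hmaps)).mul
          contDiffOn_const
  | ins f k =>
      set len := (Piece.ins f k).len j with hlen'
      have hsm : ∀ p q, ContDiffOn ℝ 2 (fun y => ((τ k * bump ((tlog y - a) / len))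
          • F.nil f (sph y))ᵀ p q) s := fun p q => by
        simp only [transpose_apply, Matrix.smul_apply, smul_eq_mul]
        refine ((contDiffOn_const.mul ((contDiff_bump (n := (2 : ℕ∞))).comp_contDiffOn
          ((((contDiffOn_coord (n := 2)).fst.mono hsub).sub contDiffOn_const).div_const _)))).mul ?_
        exact ((hF.nil_smooth f q p).of_le (by exact WithTop.coe_le_coe.2 le_top)).comp hsph hmaps
      refine run (fun _ => 1) (fun _ => 1)
        (fun y => ((τ k * bump ((tlog y - a) / len)) • F.nil f (sph y))ᵀ)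
        (fun y => -((τ k * bump ((tlog y - a) / len)) • F.nil f (sph y))ᵀ)
        (fun p q => contDiffOn_const) (fun p q => contDiffOn_const) hsm
        (fun p q => (hsm p q).neg) (fun y _ => Matrix.mul_one _)
        (fun y _ => ?_) (fun y _ a b f => changeStruct_lift_one a b f y)
        (fun y hy => ?_) ?_
      · have h := Piece.untwist_mul F (Piece.ins f k) j τ (tlog y - a) (sph y)
        simpa [Piece.twist, Piece.untwist, sub_eq_add_neg, ← hlen'] using h
      · rw [hQ' y hy]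
        simp only [Piece.twist, transpose_add, transpose_one, ← hlen', Matrix.one_mul,
          Matrix.mul_one]
      · rw [changeFrame_lift_one]
        refine (hjet f hamp.1 (τ k) len a ((Piece.ins f k).one_le_len j) x hx).trans ?_
        calc Ci * |τ k| ≤ Ci * (1 / ((j : ℝ) + 1) ^ 10) := by
              gcongr; exact hamp.2
          _ = ε := by rw [hε]; ring

/-- With the cap, the whole metric has nonnegative Ricci curvature. -/
theorem exists_ricci_nonneg {F : ModelFields Sph} (hF : ModelSmooth F) (hbr : IsoBrackets F)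
    (Nf : ℕ) {κ : ℝ} (hκ : 0 < κ) : ∃ T : ℝ, 1 ≤ T ∧ ∀ M : ℕ, ∃ N : ℕ,
    ∀ (C : CapData κ) (S : Sched) (τ : Params), EndHyps C S F τ → T ≤ C.T →
      dFun κ (2 * C.T) ≤ dMax → N ≤ S.j0 → S.t0 ≤ ((S.j0 : ℝ) + 1) ^ 8 →
      (∀ j, (S.prog j).length ≤ M) → (∀ j, ∀ P ∈ S.prog j, P.power ≤ 7) →
      (∀ j, ∀ P ∈ S.prog j, 5 ≤ P.power) →
      (∀ i m, ∀ h : m < (S.prog (S.j0 + i)).length,
        ((S.prog (S.j0 + i))[m]).RicciAmp Nf (S.j0 + i) (τ i)) →
      (∀ x ∈ chart, rsq x < Real.exp (2 * (2 * C.T + 1)) → ∀ v : Pt 7,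
        0 ≤ ∑ j, ∑ l, ricci C.core j l x * v j * v l) →
      ∀ x ∈ chart, ∀ v : Pt 7,
        0 ≤ ∑ j, ∑ l, ricci (globalMetric C S F τ) j l x * v j * v l := by
  obtain ⟨T, hT1, hT⟩ := exists_window_ricci hF hbr Nf hκ
  refine ⟨T, hT1, fun M => ?_⟩
  obtain ⟨N, hN⟩ := hT ((M : ℝ) + 2) (by positivity)
  refine ⟨N, fun C S τ H hC hd hj0 ht0 hlen hpow hpow5 hamp hcore x hx v => ?_⟩
  by_cases hr : rsq x < Real.exp (2 * (2 * C.T + 1))
  · exact H.ricci_nonneg_cap hx hr (hcore x hx hr v)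
  have hr0 : 0 < rsq x := (Real.exp_pos _).trans_le (not_lt.1 hr)
  have hx0 : x ∈ chartOff := ⟨hx, hr0⟩
  have htx : 2 * C.T + 1 ≤ tlog x := by
    have := Real.log_le_log (Real.exp_pos _) (not_lt.1 hr)
    rw [Real.log_exp] at this
    unfold tlog; linarith
  have hCT := C.T_pos
  have hdle : ∀ t, 2 * C.T ≤ t → dFun κ t ≤ dMax := fun t ht =>
    (dFun_anti hκ.le (show 2 * C.T ∈ Ioi (0 : ℝ) by show (0:ℝ) < _; linarith)
      (show t ∈ Ioi (0 : ℝ) by show (0:ℝ) < t; linarith) ht).trans hd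
  have hcongr : ∀ i l, ricci (globalMetric C S F τ) i l x
      = ricci (warpMetric (endP C S F τ)) i l x := fun i l =>
    ricci_congr isOpen_chartOff hx0 (fun y hy => EndHyps.eq_warp hy) i l
  simp only [hcongr]
  rcases lt_or_ge (tlog x) (S.t0 + 1 / 4) with h | h
  · -- the junction before the first piece
    set j := max N ⌈S.t0 + 1⌉₊
    refine hN (Piece.wait 0 5) j (fun _ => 0) 0 (Ioo (2 * C.T) (S.t0 + 1 / 4)) _ isOpen_Ioo
      (le_max_left _ _) le_rfl trivial (fun t ht => ⟨by linarith [ht.1], ?_, hdle t ht.1.le⟩)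
      (fun t ht z => ?_) x hx0 ⟨by linarith, h⟩ v
    · have hj : t ≤ (j : ℝ) + 1 := by
        have h1 : S.t0 + 1 ≤ (j : ℝ) :=
          (Nat.le_ceil _).trans (by exact_mod_cast le_max_right _ _)
        linarith [ht.2]
      refine hj.trans ((le_self_pow₀ (le_add_of_nonneg_left (Nat.cast_nonneg _))
        (by norm_num : (8 : ℕ) ≠ 0)).trans (le_mul_of_one_le_left (by positivity) ?_))
      linarith [(Nat.cast_nonneg M : (0 : ℝ) ≤ M)]
    · rw [endP_cap H.ne H.late ht.2.le, C.junction t ht.1.le, juncMat_eq_gram]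
      rfl
  · obtain ⟨i, m, hm, h1, h2⟩ := S.exists_window H.ne (t := tlog x) (by linarith)
    set a := S.pieceStart i m
    have hge : ∀ t ∈ Ioo (a - 1 / 4) (S.pieceStart i (m + 1) + 1 / 4), 2 * C.T ≤ t := fun t ht => by
      have h0 : S.t0 ≤ a := by
        calc S.t0 ≤ S.start i := S.t0_le_start i
          _ = S.pieceStart i 0 := (S.pieceStart_zero i).symm
          _ ≤ a := S.pieceStart_mono i (Nat.zero_le m)
      linarith [ht.1, H.late]
    refine hN _ (S.j0 + i) (τ i) a (Ioo (a - 1 / 4) (S.pieceStart i (m + 1) + 1 / 4)) _ isOpen_Ioo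
      (hj0.trans (Nat.le_add_right _ _)) (hpow5 _ _ (List.getElem_mem hm)) (hamp i m hm)
      (fun t ht => ⟨by linarith [hge t ht], ?_, hdle t (hge t ht)⟩) (fun t ht z => ?_)
      x hx0 ⟨by linarith, by linarith⟩ v
    · have e1 : S.pieceStart i (m + 1) ≤ S.start (i + 1) := by
        rw [← S.pieceStart_length i]; exact S.pieceStart_mono i hm
      have e2 := S.start_le hlen hpow (i + 1)
      set q := ((S.j0 + i : ℕ) : ℝ) + 1 with hq
      have e3 : ((S.j0 + (i + 1) : ℕ) : ℝ) = q := by rw [hq]; push_cast; ring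
      have e4 : ((S.j0 : ℝ) + 1) ^ 8 ≤ q ^ 8 :=
        pow_le_pow_left₀ (by positivity)
          (by rw [hq]; push_cast; linarith [(Nat.cast_nonneg i : (0:ℝ) ≤ i)]) 8
      have e5 : (1 : ℝ) ≤ q ^ 8 := one_le_pow₀ (le_add_of_nonneg_left (Nat.cast_nonneg _))
      rw [e3] at e2
      nlinarith [ht.2]
    · rw [endP_end H.ne H.late (hge t ht), S.pEnd_window τ H.ne H.chained hm ht.1.le ht.2.le]

end

end Vale.Agent.P225
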