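import Vale.Agent.P225.Assembly.Modes
import Vale.Agent.P225.Geom.EndRicci
import Vale.Agent.P225.Metric.Local

/-!
P225 (helper29): for the end Ricci criterion, the jet of the small change of frame
`1 + (b(log r) n(sphere point))ᵀ` is `O(|b| + |b'| + |b''|)`.
-/

namespace Vale.Agent.P225

open scoped BigOperators ContDiff Topology
open Set Matrix Filter

noncomputable section

/-- `diag(0, E)`. -/
def tang (E : M6) : Matrix (Fin 7) (Fin 7) ℝ :=
  (fromBlocks (0 : Matrix Unit Unit ℝ) 0 0 E).submatrix e7.symm e7.symm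

theorem lift7_one_add (E : M6) : lift7 (1 + E) = 1 + tang E := by
  have h : fromBlocks (1 : Matrix Unit Unit ℝ) 0 0 (1 + E) = 1 + fromBlocks 0 0 0 E := by
    rw [← fromBlocks_one, fromBlocks_add]; simp
  rw [lift7, h, submatrix_add, Pi.add_apply, Pi.add_apply, submatrix_one_equiv]; rfl

theorem tang_smul (c : ℝ) (E : M6) : tang (c • E) = c • tang E := by
  ext i j
  obtain ⟨a, rfl⟩ := e7.surjective i
  obtain ⟨b, rfl⟩ := e7.surjective j
  rcases a with u | p <;> rcases b with u' | q <;> simp [tang]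

theorem contDiffOn_tang {E : Sph → M6} (h : ∀ p q, ContDiffOn ℝ ∞ (fun z => E z p q) punct)
    (i j : Fin 7) : ContDiffOn ℝ ∞ (fun z => tang (E z) i j) punct := by
  obtain ⟨a, rfl⟩ := e7.surjective i
  obtain ⟨b, rfl⟩ := e7.surjective j
  rcases a with u | p <;> rcases b with u' | q <;> simp [tang]
  all_goals first | exact contDiffOn_const | exact h p q

/-- Time part of the derivative of `b ⊗ m` along base field `p`. -/
def dTime (p : Fin 7) (b : ℝ → ℝ) : ℝ → ℝ := if p = 0 then deriv b else b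

/-- Cross-section part of the derivative of `b ⊗ m` along base field `p`. -/
def dCross (p : Fin 7) (m : Sph → ℝ) : Sph → ℝ :=
  if p = 0 then m else fun z => fderiv ℝ m z
    (Sum.elim (fun _ => (0 : Sph)) (fun k => sfield k z) (e7.symm p))

theorem contDiffOn_dCross {m : Sph → ℝ} (h : ContDiffOn ℝ ∞ m punct) (p : Fin 7) :
    ContDiffOn ℝ ∞ (dCross p m) punct := by
  unfold dCross
  split_ifs
  · exact h
  refine (h.fderiv_of_isOpen isOpen_punct (m := ∞) (by simp)).clm_apply ?_
  rcases e7.symm p with u | k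
  · exact contDiffOn_const
  · exact (contDiff_sfield k).contDiffOn

theorem dirDeriv_tensor {x : Pt 7} (hx : x ∈ chartOff) {b : ℝ → ℝ} {m : Sph → ℝ}
    (hb : DifferentiableAt ℝ b (tlog x)) (hm : DifferentiableAt ℝ m (sph x)) (p : Fin 7) :
    dirDeriv (fun y => b (tlog y) * m (sph y)) (baseField p x) x
      = dTime p b (tlog x) * dCross p m (sph x) := by
  have hG : DifferentiableAt ℝ (fun a : ℝ × Sph => b a.1 * m a.2) (tlog x, sph x) :=
    (hb.comp (tlog x, sph x) differentiableAt_fst).fun_mul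
      (hm.comp (tlog x, sph x) differentiableAt_snd)
  obtain ⟨a, rfl⟩ := e7.surjective p
  rcases a with u | k
  · rw [e7_inl, dirDeriv_zero_coord (G := fun a => b a.1 * m a.2) hx hG]
    simp only [dTime, dCross]
    exact (hb.hasDerivAt.mul_const (m (sph x))).deriv
  · rw [e7_inr, dirDeriv_idx_coord (G := fun a => b a.1 * m a.2) hx hG]
    have hne : idx k ≠ 0 := by
      obtain ⟨i, σ⟩ := k
      intro h
      have h' : 1 + 3 * i.val + σ.val = 0 := congrArg Fin.val h
      omega
    simp only [dTime, dCross, if_neg hne, e7_symm_idx, Sum.elim_inr]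
    show fderiv ℝ (fun z => b (tlog x) * m z) (sph x) _ = _
    rw [fderiv_const_mul hm]
    rfl

theorem changeFrame_lift_one : changeFrame baseField (fun _ => lift7 1) = baseField := by
  funext a x k
  simp [changeFrame, lift7_one, one_apply]

theorem changeStruct_lift_one (a b f : Fin 7) (x : Pt 7) :
    changeStruct baseField (fun p q r _ => baseStruct p q r) (fun _ => lift7 1)
      (fun _ => lift7 1) a b f x = baseStruct a b f := by
  rw [changeStruct_eq_structJ]
  simp [FrameJet.structJ, FrameJet.bracketJ, frameJet, FrameJet.mat, FrameJet.inv, FrameJet.dmat,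
    lift7_one, one_apply, dirDeriv_const']

/-- The jet of a constant identity change of frame. -/
theorem frameJet_lift_one (e : Fin 7 → Pt 7 → Pt 7) (x : Pt 7) :
    frameJet e (fun _ => lift7 1) (fun _ => lift7 1) x = FrameJet.one := by
  simp only [frameJet, FrameJet.one, lift7_one, dirDeriv_const', one_apply]
  rfl

/-- The unit cross-section. -/
def sphCompact : Set Sph := {z | z.1 ⬝ᵥ z.1 = 1 ∧ z.2 ⬝ᵥ z.2 = 1}

theorem isCompact_sphCompact : IsCompact sphCompact := by
  have hc : Continuous fun v : Fin 4 → ℝ => v ⬝ᵥ v :=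
    continuous_finsetSum _ fun i _ => (continuous_apply i).mul (continuous_apply i)
  refine Metric.isCompact_of_isClosed_isBounded
    ((isClosed_eq (hc.comp continuous_fst) continuous_const).inter
      (isClosed_eq (hc.comp continuous_snd) continuous_const))
    ((Metric.isBounded_closedBall (x := (0 : Sph)) (r := 1)).subset fun z hz => ?_)
  rw [mem_closedBall_zero_iff]
  have key : ∀ v : Fin 4 → ℝ, v ⬝ᵥ v = 1 → ‖v‖ ≤ 1 := fun v hv => by
    refine (pi_norm_le_iff_of_nonneg zero_le_one).2 fun i => ?_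
    have h1 : v i * v i ≤ v ⬝ᵥ v :=
      Finset.single_le_sum (f := fun i => v i * v i) (fun i _ => mul_self_nonneg _)
        (Finset.mem_univ i)
    rw [Real.norm_eq_abs, abs_le_one_iff_mul_self_le_one]
    linarith
  exact max_le (key _ hz.1) (key _ hz.2)

theorem sphCompact_subset : sphCompact ⊆ punct := fun z hz =>
  ⟨fun h => by simp [h, sphCompact] at hz, fun h => by simp [h, sphCompact] at hz⟩

/-- The jet of `1 + (b n)ᵀ` is within `C (|b| + |b'| + |b''|)` of the trivial jet. -/
theorem exists_jet_bound {n : Sph → M6} (hn : ∀ p q, ContDiffOn ℝ ∞ (fun z => n z p q) punct) :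
    ∃ C : ℝ, 0 ≤ C ∧ ∀ (b : ℝ → ℝ), ContDiff ℝ 2 b → ∀ x ∈ chartOff, ∀ c : ℝ,
      |b (tlog x)| ≤ c → |deriv b (tlog x)| ≤ c → |deriv (deriv b) (tlog x)| ≤ c →
      ‖frameJet baseField (fun y => lift7 (1 + (b (tlog y) • n (sph y))ᵀ))
          (fun y => lift7 (1 + -(b (tlog y) • n (sph y))ᵀ)) x - FrameJet.one‖ ≤ C * c := by
  set m : Fin 7 → Fin 7 → Sph → ℝ := fun i j z => tang (n z)ᵀ i j with hm
  have hms : ∀ i j, ContDiffOn ℝ ∞ (m i j) punct :=
    contDiffOn_tang fun p q => hn q p
  set V : Sph → (Fin 7 × Fin 7) × (Fin 7 × Fin 7) → ℝ × ℝ × ℝ := fun z k =>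
    (m k.2.1 k.2.2 z, dCross k.1.2 (m k.2.1 k.2.2) z,
      dCross k.1.1 (dCross k.1.2 (m k.2.1 k.2.2)) z) with hV
  have hVc : ContinuousOn V sphCompact := by
    simp only [hV]
    refine continuousOn_pi.2 fun ⟨⟨r, p⟩, i, j⟩ => ?_
    exact (((hms i j).continuousOn.mono sphCompact_subset)).prodMk
      (((contDiffOn_dCross (hms i j) p).continuousOn.mono sphCompact_subset).prodMk
        ((contDiffOn_dCross (contDiffOn_dCross (hms i j) p) r).continuousOn.mono sphCompact_subset))
  obtain ⟨C, hC⟩ := isCompact_sphCompact.exists_bound_of_continuousOn hVc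
  refine ⟨max C 0, le_max_right _ _, fun b hb x hx c h0 h1 h2 => ?_⟩
  set t := tlog x
  have hz : sph x ∈ sphCompact := sph_mem hx
  have hc : 0 ≤ c := (abs_nonneg _).trans h0
  have hbd : ∀ r p i j, |m i j (sph x)| ≤ max C 0 ∧ |dCross p (m i j) (sph x)| ≤ max C 0 ∧
      |dCross r (dCross p (m i j)) (sph x)| ≤ max C 0 := by
    intro r p i j
    have h : ‖V (sph x) ((r, p), i, j)‖ ≤ C := (norm_le_pi_norm _ _).trans (hC _ hz)
    simp only [hV, Prod.norm_def, Real.norm_eq_abs, max_le_iff] at h
    exact ⟨h.1.trans (le_max_left _ _), h.2.1.trans (le_max_left _ _),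
      h.2.2.trans (le_max_left _ _)⟩
  have hb1 : ContDiff ℝ 1 (deriv b) :=
    ((contDiff_succ_iff_deriv (n := 1)).1 (by exact_mod_cast hb)).2.2
  have hT1 : ∀ p, |dTime p b t| ≤ c := fun p => by
    unfold dTime; split_ifs
    · exact h1
    · exact h0
  have hT2 : ∀ r p, |dTime r (dTime p b) t| ≤ c := fun r p => by
    unfold dTime; split_ifs
    · exact h2
    · exact h1
    · exact h1
    · exact h0
  have hTd : ∀ p, Differentiable ℝ (dTime p b) := fun p => by
    unfold dTime; split_ifs
    · exact hb1.differentiable one_ne_zero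
    · exact hb.differentiable (by norm_num)
  have hmd : ∀ i j, ∀ y ∈ chartOff, DifferentiableAt ℝ (m i j) (sph y) := fun i j y hy =>
    ((hms i j).contDiffAt (isOpen_punct.mem_nhds (sph_punct hy))).differentiableAt (by simp)
  have hM : ∀ y i j, lift7 (1 + (b (tlog y) • n (sph y))ᵀ) i j
      = (1 : Matrix (Fin 7) (Fin 7) ℝ) i j + b (tlog y) * m i j (sph y) := fun y i j => by
    simp [hm, lift7_one_add, transpose_smul, tang_smul]
  have hN : ∀ y i j, lift7 (1 + -(b (tlog y) • n (sph y))ᵀ) i j
      = (1 : Matrix (Fin 7) (Fin 7) ℝ) i j + -b (tlog y) * m i j (sph y) := fun y i j => by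
    simp [hm, lift7_one_add, transpose_smul, ← neg_smul, tang_smul]
  have hd : ∀ (b' : ℝ → ℝ), Differentiable ℝ b' → ∀ i j p, ∀ y ∈ chartOff,
      dirDeriv (fun z => (1 : Matrix (Fin 7) (Fin 7) ℝ) i j + b' (tlog z) * m i j (sph z))
        (baseField p y) y = dTime p b' (tlog y) * dCross p (m i j) (sph y) := by
    intro b' hb' i j p y hy
    rw [← dirDeriv_tensor hy (hb' _) (hmd i j y hy)]
    simp only [dirDeriv, fderiv_const_add]
  have hneg : ∀ p, dTime p (fun s => -b s) t = -dTime p b t := fun p => by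
    unfold dTime; split_ifs <;> simp [deriv.fun_neg']
  have hmul : ∀ {u w : ℝ}, |u| ≤ c → |w| ≤ max C 0 → |u * w| ≤ max C 0 * c := fun hu hw => by
    rw [abs_mul, mul_comm (max C 0)]
    exact mul_le_mul hu hw (abs_nonneg _) hc
  have hR : 0 ≤ max C 0 * c := mul_nonneg (le_max_right _ _) hc
  simp only [frameJet, hM, hN, Prod.norm_def, Prod.fst_sub, Prod.snd_sub, FrameJet.one, max_le_iff,
    pi_norm_le_iff_of_nonneg hR, Pi.sub_apply, Real.norm_eq_abs, sub_zero]
  refine ⟨fun i j => ?_, fun i j => ?_, fun p i j => ?_, fun p i j => ?_, fun r p i j => ?_⟩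
  · rw [one_apply, add_sub_cancel_left]
    exact hmul h0 (hbd 0 0 i j).1
  · rw [one_apply, add_sub_cancel_left]
    exact hmul (by rwa [abs_neg]) (hbd 0 0 i j).1
  · rw [hd b (hb.differentiable (by norm_num)) i j p x hx]
    exact hmul (hT1 p) (hbd 0 p i j).2.1
  · rw [hd (fun s => -b s) (hb.differentiable (by norm_num)).neg i j p x hx, hneg]
    exact hmul (by rw [abs_neg]; exact hT1 p) (hbd 0 p i j).2.1
  · rw [dirDeriv_congr isOpen_chartOff hx
      (h := fun y => dTime p b (tlog y) * dCross p (m i j) (sph y))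
      (fun y hy => hd b (hb.differentiable (by norm_num)) i j p y hy),
      dirDeriv_tensor hx (hTd p _) ?_]
    · exact hmul (hT2 r p) (hbd r p i j).2.2
    · exact ((contDiffOn_dCross (hms i j) p).contDiffAt
        (isOpen_punct.mem_nhds (sph_punct hx))).differentiableAt (by simp)

end

end Vale.Agent.P225
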