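import Vale.Agent.P225.Metric.Warp
import Mathlib.Analysis.SpecialFunctions.Pow.Deriv
import Mathlib.Analysis.SpecialFunctions.SmoothTransition

/-!
P225 (helper29): smooth square roots of the dual metrics of the pieces, hence local frames and
smoothness of the warped metric.
-/

namespace Vale.Agent.P225

open scoped BigOperators ContDiff
open Set Matrix

noncomputable section

/-- `1 ⊗ A`: a `2 × 2` matrix acting on both triples. -/
def blk2 (A : Matrix (Fin 2) (Fin 2) ℝ) : M6 := blockDiagonal fun _ => A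

theorem blk2_apply (A : Matrix (Fin 2) (Fin 2) ℝ) (p q : Fin 2 × Fin 3) :
    blk2 A p q = if p.2 = q.2 then A p.1 q.1 else 0 := rfl

theorem blk2_mul (A B : Matrix (Fin 2) (Fin 2) ℝ) : blk2 A * blk2 B = blk2 (A * B) :=
  (blockDiagonal_mul _ _).symm

theorem blk2_transpose (A : Matrix (Fin 2) (Fin 2) ℝ) : (blk2 A)ᵀ = blk2 Aᵀ :=
  blockDiagonal_transpose _

theorem blk2_one : blk2 1 = 1 := blockDiagonal_one

theorem det_blk2 (A : Matrix (Fin 2) (Fin 2) ℝ) : (blk2 A).det = A.det ^ 3 := by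
  simp [blk2, det_blockDiagonal]

theorem gram_eq_blk2 (w : Fin 3 → ℝ) :
    gram w = blk2 !![w 0 + w 2, w 2; w 2, w 1 + w 2] := rfl

theorem det_gram (w : Fin 3 → ℝ) : (gram w).det = wdet w ^ 3 := by
  rw [gram_eq_blk2, det_blk2, det_fin_two]
  simp [wdet]
  ring

/-- Positivity of the weights: `gram w` is positive definite. -/
structure WPos (w : Fin 3 → ℝ) : Prop where
  first : 0 < w 0 + w 2
  det : 0 < wdet w

/-- A triangular square root of `gram w`. -/
def cholM (w : Fin 3 → ℝ) : M6 :=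
  blk2 !![Real.sqrt (w 0 + w 2), 0;
    w 2 / Real.sqrt (w 0 + w 2), Real.sqrt (wdet w) / Real.sqrt (w 0 + w 2)]

/-- Its inverse. -/
def cholN (w : Fin 3 → ℝ) : M6 :=
  blk2 !![1 / Real.sqrt (w 0 + w 2), 0;
    -(w 2 / (Real.sqrt (w 0 + w 2) * Real.sqrt (wdet w))),
    Real.sqrt (w 0 + w 2) / Real.sqrt (wdet w)]

theorem cholM_sq {w : Fin 3 → ℝ} (h : WPos w) : cholM w * (cholM w)ᵀ = gram w := by
  have h1 := Real.sq_sqrt h.first.le
  have h2 := Real.sq_sqrt h.det.le
  have h3 := (Real.sqrt_pos.2 h.first).ne'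
  rw [cholM, blk2_transpose, blk2_mul, gram_eq_blk2]
  congr 1
  ext i j
  fin_cases i <;> fin_cases j <;> simp [mul_apply, Fin.sum_univ_two]
  · linear_combination h1
  · field_simp
  · field_simp
  · field_simp
    rw [h1, h2]
    simp only [wdet]
    ring

theorem cholN_mul {w : Fin 3 → ℝ} (h : WPos w) : cholN w * cholM w = 1 := by
  have h3 := (Real.sqrt_pos.2 h.first).ne'
  have h4 := (Real.sqrt_pos.2 h.det).ne'
  rw [cholM, cholN, blk2_mul, ← blk2_one]
  congr 1
  ext i j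
  fin_cases i <;> fin_cases j <;> simp [mul_apply, Fin.sum_univ_two]
  · field_simp
  · field_simp
    ring
  · field_simp

theorem contDiffOn_blk2 {E : Type*} [NormedAddCommGroup E] [NormedSpace ℝ E] {n : WithTop ℕ∞}
    {S : Set E} {A : E → Matrix (Fin 2) (Fin 2) ℝ}
    (h : ∀ i j, ContDiffOn ℝ n (fun a => A a i j) S) (p q : Fin 2 × Fin 3) :
    ContDiffOn ℝ n (fun a => blk2 (A a) p q) S := by
  simp only [blk2_apply]
  split_ifs
  · exact h _ _
  · exact contDiffOn_const

theorem contDiffOn_chol {E : Type*} [NormedAddCommGroup E] [NormedSpace ℝ E] {n : WithTop ℕ∞}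
    {S : Set E} {w : E → Fin 3 → ℝ} (hw : ∀ i, ContDiffOn ℝ n (fun a => w a i) S)
    (hpos : ∀ a ∈ S, WPos (w a)) (p q : Fin 2 × Fin 3) :
    ContDiffOn ℝ n (fun a => cholM (w a) p q) S ∧ ContDiffOn ℝ n (fun a => cholN (w a) p q) S := by
  have hs : ContDiffOn ℝ n (fun a => Real.sqrt (w a 0 + w a 2)) S :=
    ((hw 0).add (hw 2)).sqrt fun a ha => (hpos a ha).first.ne'
  have hd : ContDiffOn ℝ n (fun a => Real.sqrt (wdet (w a))) S :=
    ((((hw 0).mul (hw 1)).add ((hw 0).mul (hw 2))).add ((hw 1).mul (hw 2))).sqrt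
      fun a ha => (hpos a ha).det.ne'
  have hs0 : ∀ a ∈ S, Real.sqrt (w a 0 + w a 2) ≠ 0 := fun a ha =>
    (Real.sqrt_pos.2 (hpos a ha).first).ne'
  have hd0 : ∀ a ∈ S, Real.sqrt (wdet (w a)) ≠ 0 := fun a ha =>
    (Real.sqrt_pos.2 (hpos a ha).det).ne'
  constructor
  · refine contDiffOn_blk2 (fun i j => ?_) p q
    fin_cases i <;> fin_cases j <;> simp
    · exact hs
    · exact contDiffOn_const
    · exact (hw 2).div hs hs0
    · exact hd.div hs hs0
  · refine contDiffOn_blk2 (fun i j => ?_) p q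
    fin_cases i <;> fin_cases j <;> simp
    · exact hs.inv hs0
    · exact contDiffOn_const
    · exact ((hw 2).div (hs.mul hd) fun a ha => mul_ne_zero (hs0 a ha) (hd0 a ha)).neg
    · exact hs.div hd hd0

theorem contDiffOn_mul_matrix {E : Type*} [NormedAddCommGroup E] [NormedSpace ℝ E]
    {n : WithTop ℕ∞} {S : Set E} {A B : E → M6}
    (hA : ∀ p q, ContDiffOn ℝ n (fun a => A a p q) S)
    (hB : ∀ p q, ContDiffOn ℝ n (fun a => B a p q) S) (p q : Fin 2 × Fin 3) :
    ContDiffOn ℝ n (fun a => (A a * B a) p q) S := by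
  simp only [mul_apply]
  exact ContDiffOn.sum fun r _ => (hA p r).mul (hB r q)

/-! ### Coordinates -/

theorem contDiff_ys' {n : WithTop ℕ∞} : ContDiff ℝ n ys := by unfold ys; fun_prop

theorem contDiffOn_xc' {n : WithTop ℕ∞} (i : Fin 4) :
    ContDiffOn ℝ n (fun x => xc x i) chart := by
  fin_cases i
  · exact (contDiff_ys'.contDiffOn.log fun x hx => (ne_of_gt hx)).div_const 2
  all_goals exact (contDiff_apply ℝ ℝ _).contDiffOn

theorem contDiffOn_rsq' {n : WithTop ℕ∞} : ContDiffOn ℝ n rsq chart := by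
  show ContDiffOn ℝ n (fun x => ∑ i, xc x i * xc x i) chart
  exact ContDiffOn.sum fun i _ => (contDiffOn_xc' i).mul (contDiffOn_xc' i)

theorem contDiffOn_coord {n : WithTop ℕ∞} :
    ContDiffOn ℝ n (fun x => (tlog x, sph x)) chartOff := by
  have sub : chartOff ⊆ chart := fun y hy => hy.1
  have hr : ContDiffOn ℝ n rsq chartOff := contDiffOn_rsq'.mono sub
  have hr0 : ∀ y ∈ chartOff, rsq y ≠ 0 := fun y hy => ne_of_gt hy.2
  have hy0 : ContDiffOn ℝ n ys chartOff := contDiff_ys'.contDiffOn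
  refine ((hr.log hr0).div_const 2).prodMk (ContDiffOn.prodMk ?_ ?_)
  · refine contDiffOn_pi.2 fun i => ?_
    exact ((hr.sqrt hr0).inv fun y hy => (Real.sqrt_pos.2 hy.2).ne').mul
      ((contDiffOn_xc' i).mono sub)
  · refine contDiffOn_pi.2 fun i => ?_
    refine ((hy0.sqrt fun y hy => ne_of_gt hy.1).inv fun y hy =>
      (Real.sqrt_pos.2 hy.1).ne').mul ?_
    fin_cases i <;> exact (contDiff_apply ℝ ℝ _).contDiffOn

theorem contDiffOn_baseCo' {n : WithTop ℕ∞} (a i : Fin 7) :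
    ContDiffOn ℝ n (baseCo a i) chartOff := by
  have sub : chartOff ⊆ chart := fun y hy => hy.1
  have hys : ContDiffOn ℝ n (fun y => (ys y)⁻¹) chartOff :=
    contDiff_ys'.contDiffOn.inv fun y hy => ne_of_gt hy.1
  have hrs : ContDiffOn ℝ n (fun y => (rsq y)⁻¹) chartOff :=
    (contDiffOn_rsq'.mono sub).inv fun y hy => ne_of_gt hy.2
  have hyc : ∀ k, ContDiffOn ℝ n (fun y => yc y k) chartOff := fun k => by
    fin_cases k <;> exact (contDiff_apply ℝ ℝ _).contDiffOn
  have hd : ∀ j, ContDiffOn ℝ n (fun y => dxc y (Pi.single i 1) j) chartOff := by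
    intro j
    fin_cases j
    · simp only [dxc, Fin.zero_eta, cons_val_zero, div_eq_mul_inv]
      exact ((((contDiff_apply ℝ ℝ (0 : Fin 7)).contDiffOn.mul contDiffOn_const).add
        ((contDiff_apply ℝ ℝ (1 : Fin 7)).contDiffOn.mul contDiffOn_const)).add
        ((contDiff_apply ℝ ℝ (2 : Fin 7)).contDiffOn.mul contDiffOn_const)).add
        ((contDiff_apply ℝ ℝ (3 : Fin 7)).contDiffOn.mul contDiffOn_const) |>.mul hys
    all_goals simpa [dxc] using contDiffOn_const
  have hx : ∀ A : Matrix (Fin 4) (Fin 4) ℝ, ContDiffOn ℝ n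
      (fun y => (A *ᵥ xc y) ⬝ᵥ dxc y (Pi.single i 1) / rsq y) chartOff := by
    intro A
    simp only [div_eq_mul_inv, dotProduct, mulVec]
    exact (ContDiffOn.sum fun j _ => (ContDiffOn.sum fun k _ =>
      contDiffOn_const.mul ((contDiffOn_xc' k).mono sub)).mul (hd j)).mul hrs
  have hy : ∀ A : Matrix (Fin 4) (Fin 4) ℝ, ContDiffOn ℝ n
      (fun y => (A *ᵥ yc y) ⬝ᵥ yc (Pi.single i 1) / ys y) chartOff := by
    intro A
    simp only [div_eq_mul_inv, dotProduct, mulVec]
    exact (ContDiffOn.sum fun j _ => (ContDiffOn.sum fun k _ =>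
      contDiffOn_const.mul (hyc k)).mul contDiffOn_const).mul hys
  unfold baseCo baseForm
  fin_cases a
  · have h := hx 1
    simp only [one_mulVec] at h
    exact h
  · exact hx (qmul 0)
  · exact hx (qmul 1)
  · exact hx (qmul 2)
  · exact hy (qmul 0)
  · exact hy (qmul 1)
  · exact hy (qmul 2)

/-- The points of the ambient space with both factors nonzero. -/
def punct : Set Sph := {z | z.1 ≠ 0 ∧ z.2 ≠ 0}

theorem isOpen_punct : IsOpen punct :=
  (isOpen_ne_fun continuous_fst continuous_const).inter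
    (isOpen_ne_fun continuous_snd continuous_const)

theorem sph_punct {x : Pt 7} (hx : x ∈ chartOff) : sph x ∈ punct := by
  obtain ⟨h1, h2⟩ := sph_mem hx
  exact ⟨fun h => by simp [h] at h1, fun h => by simp [h] at h2⟩

/-- A smooth square root of `P` for times in `I`. -/
structure Root (P : ℝ → Sph → M6) (I : Set ℝ) (M N : ℝ × Sph → M6) : Prop where
  isOpen : IsOpen I
  smooth_M : ∀ p q, ContDiffOn ℝ ∞ (fun a => M a p q) (I ×ˢ punct)
  smooth_N : ∀ p q, ContDiffOn ℝ ∞ (fun a => N a p q) (I ×ˢ punct)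
  inv : ∀ a ∈ I ×ˢ punct, N a * M a = 1
  sqrt : ∀ a ∈ I ×ˢ punct, M a * (M a)ᵀ = P a.1 a.2

namespace Root

variable {P : ℝ → Sph → M6} {I : Set ℝ} {M N : ℝ × Sph → M6} (h : Root P I M N)
include h

/-- The points whose `log r` lies in the window. -/
theorem isOpen_dom : IsOpen {x | x ∈ chartOff ∧ tlog x ∈ I} :=
  ((contDiffOn_coord (n := 2)).continuousOn.fst).isOpen_inter_preimage isOpen_chartOff h.isOpen

theorem warpLocal : WarpLocal P {x | x ∈ chartOff ∧ tlog x ∈ I}
    (fun y => M (tlog y, sph y)) (fun y => N (tlog y, sph y)) where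
  isOpen := h.isOpen_dom
  subset := fun _ hy => hy.1
  smooth_M p q := ((h.smooth_M p q).of_le (by exact WithTop.coe_le_coe.2 le_top)).comp
    ((contDiffOn_coord (n := 2)).mono fun _ hy => hy.1) fun _ hy => ⟨hy.2, sph_punct hy.1⟩
  smooth_N p q := ((h.smooth_N p q).of_le (by exact WithTop.coe_le_coe.2 le_top)).comp
    ((contDiffOn_coord (n := 2)).mono fun _ hy => hy.1) fun _ hy => ⟨hy.2, sph_punct hy.1⟩
  inv _ hy := h.inv _ ⟨hy.2, sph_punct hy.1⟩
  sqrt _ hy := h.sqrt _ ⟨hy.2, sph_punct hy.1⟩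

/-- The warped metric is smooth. -/
theorem smooth_warp (i j : Fin 7) :
    ContDiffOn ℝ ∞ (fun x => warpMetric P x i j) {x | x ∈ chartOff ∧ tlog x ∈ I} := by
  have hc : ContDiffOn ℝ ∞ (fun x => (tlog x, sph x)) {x | x ∈ chartOff ∧ tlog x ∈ I} :=
    contDiffOn_coord.mono fun _ hy => hy.1
  have hN : ∀ p q, ContDiffOn ℝ ∞ (fun x => N (tlog x, sph x) p q)
      {x | x ∈ chartOff ∧ tlog x ∈ I} := fun p q =>
    (h.smooth_N p q).comp hc fun _ hy => ⟨hy.2, sph_punct hy.1⟩
  have hb : ∀ a k, ContDiffOn ℝ ∞ (baseCo a k) {x | x ∈ chartOff ∧ tlog x ∈ I} := fun a k =>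
    (contDiffOn_baseCo' a k).mono fun _ hy => hy.1
  have hinv : ∀ a b, ContDiffOn ℝ ∞ (fun x => lift7 ((N (tlog x, sph x))ᵀ * N (tlog x, sph x)) a b)
      {x | x ∈ chartOff ∧ tlog x ∈ I} := by
    intro a b
    obtain ⟨a', rfl⟩ := e7.surjective a
    obtain ⟨b', rfl⟩ := e7.surjective b
    rcases a' with u | p <;> rcases b' with v | q <;> simp only [lift7, submatrix_apply,
      Equiv.symm_apply_apply, fromBlocks_apply₁₁, fromBlocks_apply₁₂, fromBlocks_apply₂₁,
      fromBlocks_apply₂₂]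
    · exact contDiffOn_const
    · exact contDiffOn_const
    · exact contDiffOn_const
    · exact contDiffOn_mul_matrix (fun p q => hN q p) hN p q
  refine ContDiffOn.congr (f := fun x => ∑ a, ∑ b, rsq x
    * lift7 ((N (tlog x, sph x))ᵀ * N (tlog x, sph x)) a b * baseCo a i x * baseCo b j x)
    (ContDiffOn.sum fun a _ => ContDiffOn.sum fun b _ =>
      (((((contDiffOn_rsq').mono fun y (hy : y ∈ chartOff ∧ tlog y ∈ I) => hy.1.1).mul
        (hinv a b)).mul (hb a i)).mul (hb b j))) fun x hx => ?_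
  simp only [warpMetric, of_apply, h.warpLocal.inv_eq hx]

end Root

end

end Vale.Agent.P225
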